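import Vale.Agent.P092.UN.St

/-!
P092 (helper25): the statement for `t = 1`, compact form. Only definitions.
-/

namespace Vale.Agent.P092.UN

/-- A `*`-isomorphism from `L(Γ)` onto `L(Λ)`. -/
structure StarIso (Γ Λ : Type) [Group Γ] [Group Λ] where
  /-- the map (only its values on `L(Γ)` matter) -/
  toFun : Op Γ → Op Λ
  /-- the inverse map (only its values on `L(Λ)` matter) -/
  invFun : Op Λ → Op Γ
  map_mem : ∀ T, InL T → InL (toFun T)
  inv_mem : ∀ T, InL T → InL (invFun T)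
  left_inv : ∀ T, InL T → invFun (toFun T) = T
  right_inv : ∀ T, InL T → toFun (invFun T) = T
  map_add : ∀ S T, InL S → InL T → toFun (add S T) = add (toFun S) (toFun T)
  map_smul : ∀ c S T, InL S → InL T → IsSmul c S T → IsSmul c (toFun S) (toFun T)
  map_mul : ∀ S T, InL S → InL T → toFun (mul S T) = mul (toFun S) (toFun T)
  map_adj : ∀ S T, InL S → InL T → IsAdj S T → IsAdj (toFun S) (toFun T)

/-- `θ` is canonical: `θ(u_g) = χ(g) w v_{δ(g)} w*` for a group isomorphism `δ : Γ → Λ`, a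
character `χ : Γ → 𝕋` and a unitary `w ∈ L(Λ)` (with inverse and adjoint `w'`). -/
def Canonical {Γ Λ : Type} [Group Γ] [Group Λ] (θ : StarIso Γ Λ) : Prop :=
  ∃ (δ : Γ ≃* Λ) (χ : Γ →* Circle) (w w' : Op Λ), InL w ∧ IsAdj w w' ∧ mul w w' = u 1 ∧
    mul w' w = u 1 ∧ ∀ g : Γ, IsSmul (χ g) (mul (mul w (u (δ g))) w') (θ.toFun (u g))

/-- `Γ` is `W*`-superrigid: every isomorphism `L(Γ) → L(Λ)`, `Λ` any countable ICC group, is
canonical. -/
def Super (Γ : Type) [Group Γ] : Prop :=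
  ∀ (Λ : Type) [Group Λ] [Countable Λ], ICC Λ → ∀ θ : StarIso Γ Λ, Canonical θ

end Vale.Agent.P092.UN
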