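import Vale.Agent.P092.UN.St
import Vale.Agent.P092.UN.St1
import Vale.Agent.P092.SR.StR
import Vale.Agent.P092.H160.Basic

/-!
P092 (helper25): the compact letters of `UN/St`, `UN/St1` agree with the old ones.
-/

set_option linter.all false

open scoped InnerProductSpace
open Filter Topology ContinuousLinearMap

namespace Vale.Agent.P092.UN

open Vale.Agent.P092

/-! ### Operators -/

section ops

variable {X : Type} {G : Type} [Group G]

theorem dl_eq (x : X) : (dl x : Ell2 X) = H160.dl x := rfl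
theorem ap_eq (T : Op X) (ξ : Ell2 X) : ap T ξ = T ξ := rfl
theorem mul_eq (S T : Op X) : mul S T = H160.St.mul S T := rfl
theorem add_eq (S T : Op X) : add S T = H160.St.add S T := rfl

theorem isSmul_iff (c : ℂ) (S T : Op X) : IsSmul c S T ↔ H160.St.IsSmul c S T := by
  constructor
  · intro h ξ
    ext x
    exact h ξ x
  · intro h ξ x
    exact congrArg (fun v : Ell2 X => v x) (h ξ)

theorem isAdj_iff (S T : Op X) : IsAdj S T ↔ H160.St.IsAdj S T := by
  constructor
  · intro h ξ η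
    have hT : T = adjoint S := by
      refine H160.op_ext fun x => ?_
      ext y
      rw [← H160.inner_dl y (adjoint S (H160.dl x)), adjoint_inner_right, H160.inner_dl_right]
      exact h x y
    change ⟪S ξ, η⟫_ℂ = ⟪ξ, T η⟫_ℂ
    rw [hT, adjoint_inner_right]
  · intro h x y
    have h1 := h (H160.dl y) (H160.dl x)
    change ⟪S (H160.dl y), H160.dl x⟫_ℂ = ⟪H160.dl y, T (H160.dl x)⟫_ℂ at h1
    rw [H160.inner_dl_right, H160.inner_dl] at h1
    exact h1.symm

theorem u_eq (g : G) : (u g : Op G) = H160.St.u g := by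
  refine H160.op_ext fun x => ?_
  have h := (exists_u g).choose_spec x
  change (u g : Op G) (dl x) = H160.lam g (H160.dl x)
  rw [H160.lam_dl]
  exact h

theorem inL_iff (T : Op G) : InL T ↔ H160.St.InL T := by
  constructor
  · intro h S hS
    exact h S fun g => by rw [u_eq]; exact hS g
  · intro h S hS
    exact h S fun g => by have := hS g; rw [u_eq] at this; exact this

theorem tr_eq (T : Op G) : ap T (dl 1) 1 = H160.St.tr T := by
  change T (H160.dl 1) 1 = ⟪(H160.dl 1 : Ell2 G), T (H160.dl 1)⟫_ℂ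
  rw [H160.inner_dl]

end ops

/-! ### Matrices -/

section mat

variable {n : ℕ} {G : Type} [Group G]

theorem inM_iff (A : MOp n G) : InM A ↔ H103.St.InM A :=
  forall₂_congr fun i j => inL_iff _

theorem mmul_eq (A B : MOp n G) : mmul A B = H103.St.mmul A B := rfl
theorem madd_eq (A B : MOp n G) : madd A B = H103.St.madd A B := rfl

theorem isMSmul_iff (c : ℂ) (A B : MOp n G) : IsMSmul c A B ↔ H103.St.IsMSmul c A B :=
  forall₂_congr fun i j => isSmul_iff _ _ _

theorem isMAdj_iff (A B : MOp n G) : IsMAdj A B ↔ H103.St.IsMAdj A B :=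
  forall₂_congr fun i j => isAdj_iff _ _

theorem mtr_eq (A : MOp n G) : mtr A = H103.St.mtr A :=
  Finset.sum_congr rfl fun i _ => tr_eq _

theorem isProj_iff (p : MOp n G) : IsProj p ↔ H103.St.IsProj p :=
  ⟨fun h => ⟨(inM_iff p).1 h.mem, (isMAdj_iff p p).1 h.adj, h.idem⟩,
    fun h => ⟨(inM_iff p).2 h.mem, (isMAdj_iff p p).2 h.adj, h.idem⟩⟩

theorem inC_iff (p A : MOp n G) : InC p A ↔ H103.St.InC p A :=
  and_congr (inM_iff A) Iff.rfl

end mat

/-! ### Isomorphisms -/

section iso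

variable {Γ Λ : Type} [Group Γ] [Group Λ] {n : ℕ} {p : MOp n Λ}

/-- An isomorphism onto a corner, in the old letters. -/
noncomputable def CornerIso.old (θ : CornerIso Γ Λ n p) : H103.St.CornerIso Γ Λ n p where
  toFun := θ.toFun
  invFun := θ.invFun
  map_mem T h := (inC_iff _ _).1 (θ.map_mem T ((inL_iff _).2 h))
  inv_mem A h := (inL_iff _).1 (θ.inv_mem A ((inC_iff _ _).2 h))
  left_inv T h := θ.left_inv T ((inL_iff _).2 h)
  right_inv A h := θ.right_inv A ((inC_iff _ _).2 h)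
  map_add S T hS hT := θ.map_add S T ((inL_iff _).2 hS) ((inL_iff _).2 hT)
  map_smul c S T hS hT h := (isMSmul_iff _ _ _).1
    (θ.map_smul c S T ((inL_iff _).2 hS) ((inL_iff _).2 hT) ((isSmul_iff _ _ _).2 h))
  map_mul S T hS hT := θ.map_mul S T ((inL_iff _).2 hS) ((inL_iff _).2 hT)
  map_adj S T hS hT h := (isMAdj_iff _ _).1
    (θ.map_adj S T ((inL_iff _).2 hS) ((inL_iff _).2 hT) ((isAdj_iff _ _).2 h))

theorem canonicalM_of {θ : CornerIso Γ Λ n p} (h : H103.St.CanonicalM θ.old) : CanonicalM θ := by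
  obtain ⟨δ, χ, w, w', h1, h2, h3, h4, h5⟩ := h
  refine ⟨δ, χ, w, w', fun i => (inL_iff _).2 (h1 i), fun i => (isAdj_iff _ _).2 (h2 i), ?_, h4,
    fun g i j => ?_⟩
  · rw [u_eq]
    exact h3
  · rw [isSmul_iff, u_eq, u_eq]
    exact h5 g i j

/-- A `*`-isomorphism, in the old letters. -/
noncomputable def StarIso.old (θ : StarIso Γ Λ) : H160.St.StarIso Γ Λ where
  toFun := θ.toFun
  invFun := θ.invFun
  map_mem T h := (inL_iff _).1 (θ.map_mem T ((inL_iff _).2 h))
  inv_mem A h := (inL_iff _).1 (θ.inv_mem A ((inL_iff _).2 h))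
  left_inv T h := θ.left_inv T ((inL_iff _).2 h)
  right_inv A h := θ.right_inv A ((inL_iff _).2 h)
  map_add S T hS hT := θ.map_add S T ((inL_iff _).2 hS) ((inL_iff _).2 hT)
  map_smul c S T hS hT h := (isSmul_iff _ _ _).1
    (θ.map_smul c S T ((inL_iff _).2 hS) ((inL_iff _).2 hT) ((isSmul_iff _ _ _).2 h))
  map_mul S T hS hT := θ.map_mul S T ((inL_iff _).2 hS) ((inL_iff _).2 hT)
  map_adj S T hS hT h := (isAdj_iff _ _).1
    (θ.map_adj S T ((inL_iff _).2 hS) ((inL_iff _).2 hT) ((isAdj_iff _ _).2 h))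

theorem canonical_of {θ : StarIso Γ Λ} (h : H160.St.Canonical θ.old) : Canonical θ := by
  obtain ⟨δ, χ, w, w', h1, h2, h3, h4, h5⟩ := h
  refine ⟨δ, χ, w, w', (inL_iff _).2 h1, (isAdj_iff _ _).2 h2, ?_, ?_, fun g => ?_⟩
  · rw [u_eq]
    exact h3
  · rw [u_eq]
    exact h4
  · rw [isSmul_iff, u_eq, u_eq]
    exact h5 g

end iso

/-! ### The conclusions -/

theorem icc_iff (G : Type) [Group G] : ICC G ↔ SR.St.ICC G := Iff.rfl

/-- **The old conclusion (all `t`) implies the new one.** -/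
theorem superAll_of {Γ : Type} [Group Γ] (h : SR.St.SuperAll Γ) : SuperAll Γ := by
  intro Λ _ _ hΛ n p hp θ
  obtain ⟨h1, h2⟩ := h Λ hΛ n p ((isProj_iff p).1 hp) θ.old
  exact ⟨(mtr_eq p).trans h1, canonicalM_of h2⟩

/-- **The old conclusion (`t = 1`) implies the new one.** -/
theorem super_of {Γ : Type} [Group Γ] (h : SR.St.Super Γ) : Super Γ := by
  intro Λ _ _ hΛ θ
  exact canonical_of (h Λ hΛ θ.old)

/-! ### Lattices and fields -/

theorem locK_iff (k : Type) [NontriviallyNormedField k] : LocK k ↔ H515.St.LocK k := by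
  constructor
  · rintro (⟨φ, h⟩ | ⟨φ, h⟩ | h)
    · exact .real φ h
    · exact .cplx φ h
    · exact .ultra h
  · rintro (⟨φ, h⟩ | ⟨φ, h⟩ | h)
    · exact .real φ h
    · exact .cplx φ h
    · exact .ultra h

theorem isLattice_iff {G : Type} [Group G] [TopologicalSpace G] (Λ : Subgroup G) :
    IsLattice Λ ↔ H515.St.IsLattice Λ :=
  ⟨fun h => ⟨h.disc, h.covol⟩, fun h => ⟨h.disc, h.covol⟩⟩

theorem denseLattice_iff {Γ I : Type} {G : I → Type} [Group Γ] [∀ j, Group (G j)]
    [∀ j, TopologicalSpace (G j)] (i : Γ →* ∀ j, G j) :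
    DenseLattice i ↔ SR.St.DenseLattice i :=
  ⟨fun h => ⟨h.inj, (isLattice_iff _).1 h.lat, h.dense⟩,
    fun h => ⟨h.inj, (isLattice_iff _).2 h.lat, h.dense⟩⟩

end Vale.Agent.P092.UN
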