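import Vale.Agent.P092.UN.StU
import Vale.Agent.P092.UN.Eqv
import Vale.Agent.P092.H684.Psp4
import Vale.Agent.P092.H85.CU1

/-!
P092, [CL-TOP] (helper85): the lattices of `UN.LatticeU` in normal form; the top of the assembly from
the core statement of `PSU(J)`, `PSp(J)` (`nc_quo` is the proof of `nc_quo4` of helper805).
-/

set_option linter.all false

open Matrix Filter Topology

namespace Vale.Agent.P092.UN

open Vale.Agent.P092.H303 (FormGroup hyp Idx)
open Vale.Agent.P092.H684.Psp (NC super_nc)
open Vale.Agent.P092.H714.Cl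
open Vale.Agent.P092.SN (CoreE)
open Vale.Agent.P092.H85.CU (NfD wi_hyp)

/-- A quotient by a central subgroup of a group with finite centre has the proper central quotient
`S ⧸ centre`. -/
theorem nc_quoS {S E : Type} [Group S] [TopologicalSpace S] [IsTopologicalGroup S] [T2Space S]
    (hfc : (Subgroup.center S : Set S).Finite) [Group E] [TopologicalSpace E] (h : Quo S E) :
    NC E (S ⧸ Subgroup.center S) := by
  obtain ⟨f, hf, hz⟩ := h
  have ho : IsOpenQuotientMap f := MonoidHom.isOpenQuotientMap_of_isQuotientMap hf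
  have htg : IsTopologicalGroup E :=
    { continuous_mul := by
        refine (ho.prodMap ho).isQuotientMap.continuous_iff.2 ?_
        have : (fun p : E × E => p.1 * p.2) ∘ Prod.map f f =
            f ∘ fun p : S × S => p.1 * p.2 := by
          funext p
          exact (map_mul f p.1 p.2).symm
        rw [this]
        exact hf.continuous.comp continuous_mul
      continuous_inv := by
        refine hf.continuous_iff.2 ?_
        have : (fun x : E => x⁻¹) ∘ f = f ∘ fun x => x⁻¹ := by
          funext x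
          exact (map_inv f x).symm
        rw [this]
        exact hf.continuous.comp continuous_inv }
  let φ : S ⧸ f.ker ≃* E := QuotientGroup.quotientKerEquivOfSurjective f hf.surjective
  have hφ : ∀ x, φ (QuotientGroup.mk' f.ker x) = f x := fun x => rfl
  have hφs : ∀ x, φ.symm (f x) = QuotientGroup.mk' f.ker x := fun x => by
    rw [MulEquiv.symm_apply_eq, hφ]
  have hcs : Continuous φ.symm := by
    refine hf.continuous_iff.2 ?_
    have h2 : Continuous fun x : S => QuotientGroup.mk' f.ker x := continuous_quotient_mk'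
    exact h2.congr fun x => (hφs x).symm
  have hfin : (f.ker : Set S).Finite := hfc.subset hz
  haveI : IsClosed (f.ker : Set S) := hfin.isClosed
  haveI : T2Space (S ⧸ f.ker) := inferInstance
  have ht2 : T2Space E := T2Space.of_injective_continuous φ.symm.injective hcs
  let p : E →* S ⧸ Subgroup.center S := (QuotientGroup.map f.ker
    (Subgroup.center S) (MonoidHom.id _) hz).comp φ.symm.toMonoidHom
  have hpf : ∀ x, p (f x) = QuotientGroup.mk' _ x := fun x => by
    change (QuotientGroup.map f.ker (Subgroup.center S) (MonoidHom.id _) hz)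
      (φ.symm (f x)) = _
    rw [hφs]
    rfl
  have hpc : Continuous p := by
    refine hf.continuous_iff.2 ?_
    have h2 : Continuous fun x : S => QuotientGroup.mk' (Subgroup.center S) x :=
      continuous_quotient_mk'
    exact h2.congr fun x => (hpf x).symm
  refine ⟨htg, ht2, p, hpc, ?_, ?_, ?_⟩
  · intro y
    obtain ⟨x, rfl⟩ := QuotientGroup.mk'_surjective _ y
    exact ⟨f x, hpf x⟩
  · intro C hC
    have h1 := (H793.proper_mk (G := S) (Subgroup.center S) hfc.isCompact C hC).image
      hf.continuous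
    have h2 : p ⁻¹' C = f '' ((QuotientGroup.mk : S → S ⧸ Subgroup.center S) ⁻¹' C) := by
      ext y
      constructor
      · intro hy
        obtain ⟨x, rfl⟩ := hf.surjective y
        refine ⟨x, ?_, rfl⟩
        have := hpf x
        change p (f x) ∈ C at hy
        rw [this] at hy
        exact hy
      · rintro ⟨x, hx, rfl⟩
        change p (f x) ∈ C
        rw [hpf]
        exact hx
    rw [h2]
    exact h1
  · intro e he x
    obtain ⟨y, rfl⟩ := hf.surjective e
    obtain ⟨z, rfl⟩ := hf.surjective x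
    rw [hpf] at he
    have h3 : y ∈ Subgroup.center S := (QuotientGroup.eq_one_iff y).1 he
    rw [← map_mul, ← map_mul, Subgroup.mem_center_iff.1 h3 z]

/-- the central subgroups of the groups of forms are finite -/
theorem finite_centerD {k : Type} [NontriviallyNormedField k] {σ : k →+* k} {ε : k} {ι : Type}
    [Fintype ι] [DecidableEq ι] {J₀ : Matrix ι ι k} {s : ℕ} (h : NfD σ ε J₀ s) :
    (Subgroup.center (FormGroup σ (hyp (s + 2) ε J₀)) :
      Set (FormGroup σ (hyp (s + 2) ε J₀))).Finite := by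
  haveI := finite_center h.frm h.gt.ge le_rfl
  exact Set.toFinite _

/-- a continuous involution of a normed field is isometric (helper714) -/
theorem norm_of_cont {k : Type} [NontriviallyNormedField k] {σ : k →+* k} (hc : Continuous σ)
    (hσ : ∀ x, σ (σ x) = x) (x : k) : ‖σ x‖ = ‖x‖ := by
  have key : ∀ x : k, ¬ ‖x‖ < ‖σ x‖ := by
    intro x hx
    have hσx : σ x ≠ 0 := norm_pos_iff.1 (lt_of_le_of_lt (norm_nonneg x) hx)
    have hx0 : x ≠ 0 := by
      rintro rfl
      rw [map_zero] at hσx
      exact hσx rfl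
    have h1 : ‖x / σ x‖ < 1 := by
      rw [norm_div]
      exact (div_lt_one (norm_pos_iff.2 hσx)).2 hx
    have h2 := tendsto_pow_atTop_nhds_zero_of_norm_lt_one h1
    have h3 := ((hc.tendsto 0).comp h2).norm
    rw [map_zero, norm_zero] at h3
    have h4 : ∀ m : ℕ, 1 ≤ ‖σ ((x / σ x) ^ m)‖ := by
      intro m
      rw [map_pow, map_div₀, hσ, norm_pow, norm_div]
      exact one_le_pow₀ ((one_le_div (norm_pos_iff.2 hx0)).2 hx.le)
    have h5 := ge_of_tendsto' h3 h4
    exact absurd h5 (by norm_num)
  refine le_antisymm (not_lt.1 (key x)) ?_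
  have := key (σ x)
  rw [hσ] at this
  exact not_lt.1 this

/-- **The normal form of the data of the class.** -/
theorem nfD_of {k : Type} [NontriviallyNormedField k] {σ : k →+* k} {ε : k} {ι : Type} [Fintype ι]
    [DecidableEq ι] {J₀ : Matrix ι ι k} {s : ℕ} (hc : Continuous σ) (hσ : ∀ x, σ (σ x) = x)
    (hε : ε * ε = 1) (hσε : σ ε = ε) (han : IsAn σ ε J₀)
    (hty : (∃ c, σ c ≠ c) ∨ ε = -1 ∧ IsEmpty ι) (h2 : (2 : k) ≠ 0 ∨ 3 ≤ s + 2) :
    NfD σ ε J₀ s := by
  have h2' : (2 : k) ≠ 0 ∨ 1 ≤ s := h2.imp_right fun h => by omega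
  obtain ⟨hH, hJ⟩ := han
  have hn := norm_of_cont hc hσ
  by_cases hne : ∃ c, σ c ≠ c
  · have h0 := frm0_of_aniso hσ hε hne hH hσε hJ
    have hcc := cc_of_ne hσ hε hσε hne
    have hF : Frm σ ε (hyp (s + 2) ε J₀) := frm_hyp hσ hε hσε h0 hcc (by omega)
    obtain ⟨r, hr, hr1⟩ := exists_fix hF hn
    have hr0 : r ≠ 0 := by
      rintro rfl
      rw [norm_zero] at hr1
      linarith
    have hr1' : r ≠ 1 := by
      rintro rfl
      rw [norm_one] at hr1
      linarith
    exact ⟨hn, hJ, hF, wi_hyp hF hJ, formGroup_eq_GT hF hne hr hr0 hr1', Or.inl hne, h2'⟩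
  · obtain ⟨rfl, hι⟩ := hty.resolve_left hne
    push Not at hne
    obtain rfl : σ = RingHom.id k := RingHom.ext hne
    have hcc : ∃ c : k, c ≠ 0 ∧ c + -1 * (RingHom.id k) c = 0 :=
      ⟨1, one_ne_zero, by simp⟩
    have h0 : Frm0 (RingHom.id k) (-1) J₀ := frm0_empty
    have hF : Frm (RingHom.id k) (-1) (hyp (s + 2) (-1) J₀) :=
      frm_hyp hσ hε hσε h0 hcc (by omega)
    have hGT : FormGroup (RingHom.id k) (hyp (s + 2) (-1) J₀) =
        GT (RingHom.id k) (-1) (hyp (s + 2) (-1) J₀) := by
      refine H15.formGroup_eq_GT ⟨?_, ?_, ?_⟩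
      · intro i
        rcases i with (i | i) | i
        · simp [hyp]
        · simp [hyp]
        · exact (hι.false i).elim
      · intro i j
        rcases i with (i | i) | i <;> rcases j with (j | j) | j <;>
          first
            | exact (hι.false i).elim
            | exact (hι.false j).elim
            | simp [hyp, Matrix.one_apply, eq_comm]
      · intro h
        obtain ⟨v, hv0, hv⟩ := Matrix.exists_vecMul_eq_zero_iff.2 h
        obtain ⟨y, hy⟩ := hF.nondeg v hv0
        apply hy
        unfold hf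
        rw [dotProduct_mulVec, hv, zero_dotProduct]
    exact ⟨hn, hJ, hF, wi_hyp hF hJ, hGT, Or.inr ⟨rfl, hι⟩, h2'⟩

/-- the groups of the class in normal form -/
theorem nf_typeU {E : Type} [Group E] [TopologicalSpace E] (h : TypeU E) :
    ∃ (k : Type) (_ : NontriviallyNormedField k) (σ : k →+* k) (ε : k) (ι : Type)
      (_ : Fintype ι) (_ : DecidableEq ι) (J₀ : Matrix ι ι k) (s : ℕ),
      ProperSpace k ∧ IsUltrametricDist k ∧ NfD σ ε J₀ s ∧
      NC E (FormGroup σ (hyp (s + 2) ε J₀) ⧸ Subgroup.center (FormGroup σ (hyp (s + 2) ε J₀))) := by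
  obtain ⟨k, _, σ, ε, ι, _, _, J₀, q, S, hp, hu, hc, hσ, hε, hσε, han, hq, hS, hty, h2, hQ⟩ := h
  obtain ⟨s, rfl⟩ : ∃ s, q = s + 2 := ⟨q - 2, by omega⟩
  obtain rfl : S = FormGroup σ (hyp (s + 2) ε J₀) := by
    ext g
    exact hS g
  have h := nfD_of (s := s) hc hσ hε hσε han hty h2
  exact ⟨k, _, σ, ε, ι, _, _, J₀, s, hp, hu, h, nc_quoS (finite_centerD h) hQ⟩

/-- **The class `LatticeU` from the core statement of the groups `PSU(J)` and `PSp(J)`.** -/
theorem super_latticeU (h : ∀ (k : Type) [NontriviallyNormedField k] [ProperSpace k]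
    [IsUltrametricDist k] (σ : k →+* k) (ε : k) (ι : Type) [Fintype ι] [DecidableEq ι]
    (J₀ : Matrix ι ι k) (s : ℕ), NfD σ ε J₀ s →
    CoreE (FormGroup σ (hyp (s + 2) ε J₀) ⧸ Subgroup.center (FormGroup σ (hyp (s + 2) ε J₀)))) :
    ∀ (Γ : Type) [Group Γ], LatticeU Γ → Super Γ := by
  rintro Γ _ ⟨hicc, E, _, _, i, ht, hi, hl⟩
  obtain ⟨k, _, σ, ε, ι, _, _, J₀, s, hp, hu, hD, hNC⟩ := nf_typeU ht
  haveI : LocallyCompactSpace (FormGroup σ (hyp (s + 2) ε J₀)) := by
    haveI : LocallyCompactSpace (SpecialLinearGroup (Idx (s + 2) ι) k) := H303.locallyCompact_SL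
    exact (H303.isClosed_formGroup (continuous_of_norm hD.hn) _).isClosedEmbedding_subtypeVal.locallyCompactSpace
  haveI : IsClosed (Subgroup.center (FormGroup σ (hyp (s + 2) ε J₀)) :
      Set (FormGroup σ (hyp (s + 2) ε J₀))) := (finite_centerD hD).isClosed
  exact super_of (super_nc hNC (h k σ ε ι J₀ s hD) hicc i hi ((isLattice_iff _).1 hl))

end Vale.Agent.P092.UN
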