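import Vale.Agent.P092.UN.StO
import Vale.Agent.P092.UN.Eqv
import Vale.Agent.P092.H684.Psp4
import Vale.Agent.P092.CL.TopO

/-!
P092, TEAM P, stage CL-O (helper387): the lattices of `UN.LatticeO` in normal form (`nc_quoO` is the
proof of `nc_quoS` of helper85).
-/

set_option linter.all false

open Matrix Filter Topology
open scoped commutatorElement

namespace Vale.Agent.P092.UN

open Vale.Agent.P092.H303 (FormGroup hyp Idx)
open Vale.Agent.P092.H684.Psp (NC super_nc)
open Vale.Agent.P092.SN (CoreE)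
open Vale.Agent.P092.CL (OF EUF omE)
open Vale.Agent.P092.H899.Ort (Om Aniso)

/-- A quotient by a central subgroup of a group with finite centre has the proper central quotient
`S ⧸ centre`. -/
theorem nc_quoO {S E : Type} [Group S] [TopologicalSpace S] [IsTopologicalGroup S] [T2Space S]
    (hfc : (Subgroup.center S : Set S).Finite) [Group E] [TopologicalSpace E] (h : Quo S E) :
    NC E (S ⧸ Subgroup.center S) := by
  obtain ⟨f, hf, hz⟩ := h
  have ho : IsOpenQuotientMap f := MonoidHom.isOpenQuotientMap_of_isQuotientMap hf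
  have htg : IsTopologicalGroup E :=
    { continuous_mul := by
        refine (ho.prodMap ho).isQuotientMap.continuous_iff.2 ?_
        have : (fun p : E × E => p.1 * p.2) ∘ Prod.map f f =
            f ∘ fun p : S × S => p.1 * p.2 := by
          funext p
          exact (map_mul f p.1 p.2).symm
        rw [this]
        exact hf.continuous.comp continuous_mul
      continuous_inv := by
        refine hf.continuous_iff.2 ?_
        have : (fun x : E => x⁻¹) ∘ f = f ∘ fun x => x⁻¹ := by
          funext x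
          exact (map_inv f x).symm
        rw [this]
        exact hf.continuous.comp continuous_inv }
  let φ : S ⧸ f.ker ≃* E := QuotientGroup.quotientKerEquivOfSurjective f hf.surjective
  have hφ : ∀ x, φ (QuotientGroup.mk' f.ker x) = f x := fun x => rfl
  have hφs : ∀ x, φ.symm (f x) = QuotientGroup.mk' f.ker x := fun x => by
    rw [MulEquiv.symm_apply_eq, hφ]
  have hcs : Continuous φ.symm := by
    refine hf.continuous_iff.2 ?_
    have h2 : Continuous fun x : S => QuotientGroup.mk' f.ker x := continuous_quotient_mk'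
    exact h2.congr fun x => (hφs x).symm
  have hfin : (f.ker : Set S).Finite := hfc.subset hz
  haveI : IsClosed (f.ker : Set S) := hfin.isClosed
  haveI : T2Space (S ⧸ f.ker) := inferInstance
  have ht2 : T2Space E := T2Space.of_injective_continuous φ.symm.injective hcs
  let p : E →* S ⧸ Subgroup.center S := (QuotientGroup.map f.ker
    (Subgroup.center S) (MonoidHom.id _) hz).comp φ.symm.toMonoidHom
  have hpf : ∀ x, p (f x) = QuotientGroup.mk' _ x := fun x => by
    change (QuotientGroup.map f.ker (Subgroup.center S) (MonoidHom.id _) hz)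
      (φ.symm (f x)) = _
    rw [hφs]
    rfl
  have hpc : Continuous p := by
    refine hf.continuous_iff.2 ?_
    have h2 : Continuous fun x : S => QuotientGroup.mk' (Subgroup.center S) x :=
      continuous_quotient_mk'
    exact h2.congr fun x => (hpf x).symm
  refine ⟨htg, ht2, p, hpc, ?_, ?_, ?_⟩
  · intro y
    obtain ⟨x, rfl⟩ := QuotientGroup.mk'_surjective _ y
    exact ⟨f x, hpf x⟩
  · intro C hC
    have h1 := (H793.proper_mk (G := S) (Subgroup.center S) hfc.isCompact C hC).image
      hf.continuous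
    have h2 : p ⁻¹' C = f '' ((QuotientGroup.mk : S → S ⧸ Subgroup.center S) ⁻¹' C) := by
      ext y
      constructor
      · intro hy
        obtain ⟨x, rfl⟩ := hf.surjective y
        refine ⟨x, ?_, rfl⟩
        have := hpf x
        change p (f x) ∈ C at hy
        rw [this] at hy
        exact hy
      · rintro ⟨x, hx, rfl⟩
        change p (f x) ∈ C
        rw [hpf]
        exact hx
    rw [h2]
    exact h1
  · intro e he x
    obtain ⟨y, rfl⟩ := hf.surjective e
    obtain ⟨z, rfl⟩ := hf.surjective x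
    rw [hpf] at he
    have h3 : y ∈ Subgroup.center S := (QuotientGroup.eq_one_iff y).1 he
    rw [← map_mul, ← map_mul, Subgroup.mem_center_iff.1 h3 z]

/-- central quotients and isomorphisms of topological groups -/
theorem quo_equiv {S T E : Type} [Group S] [TopologicalSpace S] [Group T] [TopologicalSpace T]
    (e : S ≃ₜ* T) [Group E] [TopologicalSpace E] (h : Quo T E) : Quo S E := by
  obtain ⟨f, hf, hz⟩ := h
  refine ⟨f.comp e.toMulEquiv.toMonoidHom, hf.comp e.toHomeomorph.isQuotientMap, ?_⟩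
  intro x hx
  have h1 : e x ∈ Subgroup.center T := hz hx
  rw [Subgroup.mem_center_iff] at h1 ⊢
  intro y
  apply e.injective
  rw [map_mul, map_mul, h1]

/-- the groups `⁅SO(J), SO(J)⁆` modulo central subgroups in normal form, any local field -/
theorem nf_orth {E : Type} [Group E] [TopologicalSpace E] {k : Type} [NontriviallyNormedField k]
    {ι : Type} [Fintype ι] [DecidableEq ι] {J₀ : Matrix ι ι k} {s : ℕ}
    {S : Subgroup (SpecialLinearGroup ((Fin (s + 2) ⊕ Fin (s + 2)) ⊕ ι) k)} (h2 : (2 : k) ≠ 0)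
    (hJ₀ : IsAn id 1 J₀) (hι : Nonempty ι) (hS : ∀ g, g ∈ S ↔ IsIsom id 1 J₀ (s + 2) g.1)
    (hQ : QuoS (E := SpecialLinearGroup ((Fin (s + 2) ⊕ Fin (s + 2)) ⊕ ι) k) ⁅S, S⁆ E) :
    OF J₀ ∧ NC E (EUF (RingHom.id k) 1 (hyp (s + 2) 1 J₀) ⧸
        Subgroup.center (EUF (RingHom.id k) 1 (hyp (s + 2) 1 J₀))) := by
  obtain ⟨hH, hJ⟩ := hJ₀
  have hJs : J₀ᵀ = J₀ := by
    ext i j
    rw [transpose_apply, hH i j, one_mul]
    rfl
  have hO : OF J₀ := ⟨h2, hJs, hJ, hι⟩
  have h1 : ⁅S, S⁆ = Om (hyp (s + 2) 1 J₀⁻¹) := by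
    refine H899.Ort.commutator_eq_om (hO.dim s) h2 hJs hJ S fun g => ?_
    rw [hS g]
    have e1 : g.1.map (id : k → k) = g.1 := by ext i j; rfl
    change g.1 * hyp (s + 2) 1 J₀ * (g.1.map id)ᵀ = hyp (s + 2) 1 J₀ ↔ _
    rw [e1]
  have hQ' : Quo (Om (hyp (s + 2) (1 : k) J₀⁻¹)) E := by
    rw [← h1]
    exact hQ
  haveI := CL.t2_EUF hO s
  exact ⟨hO, nc_quoO (CL.finite_center_EUF hO s) (quo_equiv (omE hO s) hQ')⟩

/-- **One group**, any local field: the core statement of `Ω(J) ⧸ centre` gives the ICC lattices of all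
groups with a proper central quotient `Ω(J) ⧸ centre`. -/
theorem super_orth {E : Type} [Group E] [TopologicalSpace E] {k : Type}
    [NontriviallyNormedField k] [ProperSpace k] {ι : Type} [Fintype ι] [DecidableEq ι]
    {J₀ : Matrix ι ι k} {s : ℕ} (hO : OF J₀)
    (hNC : NC E (EUF (RingHom.id k) 1 (hyp (s + 2) 1 J₀) ⧸
      Subgroup.center (EUF (RingHom.id k) 1 (hyp (s + 2) 1 J₀))))
    (h : CoreE (EUF (RingHom.id k) 1 (hyp (s + 2) 1 J₀) ⧸
      Subgroup.center (EUF (RingHom.id k) 1 (hyp (s + 2) 1 J₀)))) {Γ : Type} [Group Γ]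
    (hicc : ICC Γ) (i : Γ →* E) (hi : Function.Injective i) (hl : IsLattice i.range) :
    Super Γ := by
  haveI := CL.lc_EUF hO s
  haveI := CL.t2_EUF hO s
  haveI : IsClosed (Subgroup.center (EUF (RingHom.id k) 1 (hyp (s + 2) 1 J₀)) :
      Set (EUF (RingHom.id k) 1 (hyp (s + 2) 1 J₀))) := (CL.finite_center_EUF hO s).isClosed
  exact super_of (super_nc hNC h hicc i hi ((isLattice_iff _).1 hl))

/-- the groups of the class in normal form -/
theorem nf_typeO {E : Type} [Group E] [TopologicalSpace E] (h : TypeO E) :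
    ∃ (k : Type) (_ : NontriviallyNormedField k) (ι : Type) (_ : Fintype ι) (_ : DecidableEq ι)
      (J₀ : Matrix ι ι k) (s : ℕ), ProperSpace k ∧ IsUltrametricDist k ∧ OF J₀ ∧
      NC E (EUF (RingHom.id k) 1 (hyp (s + 2) 1 J₀) ⧸
        Subgroup.center (EUF (RingHom.id k) 1 (hyp (s + 2) 1 J₀))) := by
  obtain ⟨k, _, ι, _, _, J₀, q, S, hp, hu, h2, hJ, hq, hι, hS, hQ⟩ := h
  obtain ⟨s, rfl⟩ : ∃ s, q = s + 2 := ⟨q - 2, by omega⟩
  have h := nf_orth h2 hJ hι hS hQ
  exact ⟨k, _, ι, _, _, J₀, s, hp, hu, h.1, h.2⟩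

/-- **The class `LatticeO` from the core statement of the groups `Ω(J) ⧸ centre`.** -/
theorem super_latticeO (h : ∀ (k : Type) [NontriviallyNormedField k] [ProperSpace k]
    [IsUltrametricDist k] (ι : Type) [Fintype ι] [DecidableEq ι] (J₀ : Matrix ι ι k) (s : ℕ),
    OF J₀ → CoreE (EUF (RingHom.id k) 1 (hyp (s + 2) 1 J₀) ⧸
      Subgroup.center (EUF (RingHom.id k) 1 (hyp (s + 2) 1 J₀)))) :
    ∀ (Γ : Type) [Group Γ], LatticeO Γ → Super Γ := by
  rintro Γ _ ⟨hicc, E, _, _, i, ht, hi, hl⟩
  obtain ⟨k, _, ι, _, _, J₀, s, hp, hu, hO, hNC⟩ := nf_typeO ht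
  exact super_orth hO hNC (h k ι J₀ s hO) hicc i hi hl

end Vale.Agent.P092.UN
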