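import Vale.Agent.P092.UN.StOR
import Vale.Agent.P092.UN.NfO

/-!
P092, TEAM P, stage CL-O over `ℝ` (helper874, from helper387's `nf_orth`, `super_orth`): the lattices
of `UN.LatticeOR` in normal form.
-/

set_option linter.all false

open Matrix Filter Topology
open scoped commutatorElement

namespace Vale.Agent.P092.UN

open Vale.Agent.P092.H303 (hyp Idx)
open Vale.Agent.P092.H684.Psp (NC)
open Vale.Agent.P092.SN (CoreE)
open Vale.Agent.P092.CL (OF EUF)

/-- the groups of the class in normal form -/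
theorem nf_typeOR {E : Type} [Group E] [TopologicalSpace E] (h : TypeOR E) :
    ∃ (ι : Type) (_ : Fintype ι) (_ : DecidableEq ι) (J₀ : Matrix ι ι ℝ), OF J₀ ∧
      NC E (EUF (RingHom.id ℝ) 1 (hyp (0 + 2) 1 J₀) ⧸
        Subgroup.center (EUF (RingHom.id ℝ) 1 (hyp (0 + 2) 1 J₀))) := by
  obtain ⟨ι, _, _, J₀, S, han, hι, hS, hQ⟩ := h
  exact ⟨ι, _, _, J₀, nf_orth (s := 0) two_ne_zero han hι hS hQ⟩

/-- **The class `LatticeOR` from the core statement of the groups `Ω(J) ⧸ centre`.** -/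
theorem super_latticeOR (h : ∀ (ι : Type) [Fintype ι] [DecidableEq ι] (J₀ : Matrix ι ι ℝ),
    OF J₀ → CoreE (EUF (RingHom.id ℝ) 1 (hyp (0 + 2) 1 J₀) ⧸
      Subgroup.center (EUF (RingHom.id ℝ) 1 (hyp (0 + 2) 1 J₀)))) :
    ∀ (Γ : Type) [Group Γ], LatticeOR Γ → Super Γ := by
  rintro Γ _ ⟨hicc, E, _, _, i, ht, hi, hl⟩
  obtain ⟨ι, _, _, J₀, hO, hNC⟩ := nf_typeOR ht
  exact super_orth hO hNC (h ι J₀ hO) hicc i hi hl

end Vale.Agent.P092.UN
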