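import Vale.Agent.P092.H874.NfOT
import Vale.Agent.P092.H678.O.Cls
import Vale.Agent.P092.CLT.FinO

/-!
P092, [OV] for the classes `UN.LatticeO` and `UN.LatticeOR` (helper21): lattices of a group with a
proper central quotient that has the core statement for systems.
-/

set_option linter.all false

open Matrix Filter Topology

namespace Vale.Agent.P092.UN

open Vale.Agent.P092.H303 (FormGroup hyp Idx)
open Vale.Agent.P092.H684.Psp (NC NC.pq lat_pq)
open Vale.Agent.P092.CL (OF EUF)
open Vale.Agent.P092.H678.OV (OverStmt HasOver hasOver_of superAll_virt)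

/-- **[OV], groups with a proper central quotient `G`.** -/
theorem hasOver_nc {E G : Type} [Group E] [TopologicalSpace E] [Group G] [TopologicalSpace G]
    [IsTopologicalGroup G] [T2Space G] [LocallyCompactSpace G] [SecondCountableTopology G]
    [NoncompactSpace G] (hE : NC E G) (h : OverStmt G) {Γ : Type} [Group Γ] (hicc : ICC Γ)
    (i : Γ →* E) (hi : Function.Injective i) (hl : IsLattice i.range) : HasOver Γ := by
  obtain ⟨i', hi', hl'⟩ := lat_pq hE.pq hicc i hi ((isLattice_iff _).1 hl)
  exact hasOver_of h i' hi' hl'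

/-- **[OV], orthogonal groups.** -/
theorem hasOver_orth {k : Type} [NontriviallyNormedField k] [ProperSpace k] {ι : Type}
    [Fintype ι] [DecidableEq ι] {J₀ : Matrix ι ι k} {s : ℕ} (hO : OF J₀)
    (h : OverStmt (EUF (RingHom.id k) 1 (hyp (s + 2) 1 J₀) ⧸
      Subgroup.center (EUF (RingHom.id k) 1 (hyp (s + 2) 1 J₀))))
    {E : Type} [Group E] [TopologicalSpace E]
    (hE : NC E (EUF (RingHom.id k) 1 (hyp (s + 2) 1 J₀) ⧸
      Subgroup.center (EUF (RingHom.id k) 1 (hyp (s + 2) 1 J₀))))
    {Γ : Type} [Group Γ] (hicc : ICC Γ) (i : Γ →* E) (hi : Function.Injective i)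
    (hl : IsLattice i.range) : HasOver Γ := by
  haveI := CL.lc_EUF hO s
  haveI := CL.sc_EUF hO s
  haveI := CL.t2_EUF hO s
  haveI : IsClosed (Subgroup.center (EUF (RingHom.id k) 1 (hyp (s + 2) 1 J₀)) :
      Set (EUF (RingHom.id k) 1 (hyp (s + 2) 1 J₀))) := (CL.finite_center_EUF hO s).isClosed
  haveI := CL.T.nc_orth hO s
  exact hasOver_nc hE h hicc i hi hl

end Vale.Agent.P092.UN
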