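import Vale.Agent.P092.UN.NfU
import Vale.Agent.P092.SNT.Main

/-!
P092, [CL-TOP] (helper85): the class `LatticeU` for all amplifications, from the core statement for
all amplifications.
-/

set_option linter.all false

open Matrix Filter Topology

namespace Vale.Agent.P092.UN

open Vale.Agent.P092.H303 (FormGroup hyp Idx)
open Vale.Agent.P092.H684.Psp (NC lat_nc)
open Vale.Agent.P092.H714.Cl
open Vale.Agent.P092.SNT (CoreAllE superAll_of_coreAllE)
open Vale.Agent.P092.H85.CU (NfD)

/-- **The class `LatticeU`, all amplifications.** -/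
theorem superAll_latticeU (h : ∀ (k : Type) [NontriviallyNormedField k] [ProperSpace k]
    [IsUltrametricDist k] (σ : k →+* k) (ε : k) (ι : Type) [Fintype ι] [DecidableEq ι]
    (J₀ : Matrix ι ι k) (s : ℕ), NfD σ ε J₀ s →
    CoreAllE (FormGroup σ (hyp (s + 2) ε J₀) ⧸
      Subgroup.center (FormGroup σ (hyp (s + 2) ε J₀)))) :
    ∀ (Γ : Type) [Group Γ], LatticeU Γ → SuperAll Γ := by
  rintro Γ _ ⟨hicc, E, _, _, i, ht, hi, hl⟩
  obtain ⟨k, _, σ, ε, ι, _, _, J₀, s, hp, hu, hD, hNC⟩ := nf_typeU ht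
  haveI : LocallyCompactSpace (FormGroup σ (hyp (s + 2) ε J₀)) := by
    haveI : LocallyCompactSpace (SpecialLinearGroup (Idx (s + 2) ι) k) := H303.locallyCompact_SL
    exact (H303.isClosed_formGroup (continuous_of_norm hD.hn) _).isClosedEmbedding_subtypeVal.locallyCompactSpace
  haveI : IsClosed (Subgroup.center (FormGroup σ (hyp (s + 2) ε J₀)) :
      Set (FormGroup σ (hyp (s + 2) ε J₀))) := (finite_centerD hD).isClosed
  obtain ⟨i', hi', hl'⟩ := lat_nc hNC hicc i hi ((isLattice_iff _).1 hl)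
  exact superAll_of (superAll_of_coreAllE (h k σ ε ι J₀ s hD) hicc i' hi' hl')

end Vale.Agent.P092.UN
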