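import Vale.Agent.P092.UN.NfW
import Vale.Agent.P092.UN.NfU

/-!
P092 (helper85): the lattices of `UN.LatticeU2` (unitary groups of Witt index two, any characteristic)
in normal form.
-/

set_option linter.all false

open Matrix Filter Topology

namespace Vale.Agent.P092.UN

open Vale.Agent.P092.H303 (FormGroup hyp Idx)
open Vale.Agent.P092.H684.Psp (NC super_nc)
open Vale.Agent.P092.H714.Cl
open Vale.Agent.P092.H370.Po (WI)
open Vale.Agent.P092.SN (CoreE)
open Vale.Agent.P092.H85.CU (wi_hyp)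

/-- The data of `SU(J)`, Witt index two, in normal form, any characteristic. -/
structure NfH {k : Type} [NontriviallyNormedField k] (σ : k →+* k) (ε : k) {ι : Type} [Fintype ι]
    [DecidableEq ι] (J₀ : Matrix ι ι k) : Prop where
  hn : ∀ x, ‖σ x‖ = ‖x‖
  an : ∀ v : ι → k, v ≠ 0 → v ⬝ᵥ (J₀ *ᵥ fun l => σ (v l)) ≠ 0
  frm : Frm σ ε (hyp (0 + 2) ε J₀)
  wi : WI σ (hyp (0 + 2) ε J₀) (0 + 2)
  gt : FormGroup σ (hyp (0 + 2) ε J₀) = GT σ ε (hyp (0 + 2) ε J₀)
  ne : ∃ c, σ c ≠ c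

section one

variable {k : Type} [NontriviallyNormedField k] {σ : k →+* k} {ε : k} {ι : Type} [Fintype ι]
  [DecidableEq ι] {J₀ : Matrix ι ι k}

theorem nfH_of (hc : Continuous σ) (hσ : ∀ x, σ (σ x) = x) (hε : ε * ε = 1) (hσε : σ ε = ε)
    (hne : ∃ c, σ c ≠ c) (han : IsAn σ ε J₀) : NfH σ ε J₀ := by
  obtain ⟨hH, hJ⟩ := han
  have hn := norm_of_cont hc hσ
  have h0 := frm0_of_aniso hσ hε hne hH hσε hJ
  have hcc := cc_of_ne hσ hε hσε hne
  have hF : Frm σ ε (hyp (0 + 2) ε J₀) := frm_hyp hσ hε hσε h0 hcc (by omega)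
  obtain ⟨r, hr, hr1⟩ := exists_fix hF hn
  have hr0 : r ≠ 0 := by
    rintro rfl
    rw [norm_zero] at hr1
    linarith
  have hr1' : r ≠ 1 := by
    rintro rfl
    rw [norm_one] at hr1
    linarith
  exact ⟨hn, hJ, hF, wi_hyp hF hJ, formGroup_eq_GT hF hne hr hr0 hr1', hne⟩

theorem finite_centerH (h : NfH σ ε J₀) :
    (Subgroup.center (FormGroup σ (hyp (0 + 2) ε J₀)) :
      Set (FormGroup σ (hyp (0 + 2) ε J₀))).Finite := by
  haveI := finite_center h.frm h.gt.ge le_rfl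
  exact Set.toFinite _

end one

/-- the groups of the class in normal form -/
theorem nf_typeU2 {E : Type} [Group E] [TopologicalSpace E] (h : TypeU2 E) :
    ∃ (k : Type) (_ : NontriviallyNormedField k) (σ : k →+* k) (ι : Type)
      (_ : Fintype ι) (_ : DecidableEq ι) (J₀ : Matrix ι ι k),
      ProperSpace k ∧ IsUltrametricDist k ∧ NfH σ 1 J₀ ∧
      NC E (FormGroup σ (hyp (0 + 2) 1 J₀) ⧸ Subgroup.center (FormGroup σ (hyp (0 + 2) 1 J₀))) := by
  obtain ⟨k, _, σ, ι, _, _, J₀, S, hp, hu, hc, hσ, hne, han, hS, hQ⟩ := h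
  obtain rfl : S = FormGroup σ (hyp (0 + 2) 1 J₀) := by
    ext g
    exact hS g
  have h := nfH_of hc hσ (one_mul 1) (map_one σ) hne han
  exact ⟨k, _, σ, ι, _, _, J₀, hp, hu, h, nc_quoS (finite_centerH h) hQ⟩

/-- **The class `LatticeU2`, `t = 1`, from the core statement.** -/
theorem super_latticeU2 (h : ∀ (k : Type) [NontriviallyNormedField k] [ProperSpace k]
    [IsUltrametricDist k] (σ : k →+* k) (ι : Type) [Fintype ι] [DecidableEq ι]
    (J₀ : Matrix ι ι k), NfH σ 1 J₀ →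
    CoreE (FormGroup σ (hyp (0 + 2) 1 J₀) ⧸ Subgroup.center (FormGroup σ (hyp (0 + 2) 1 J₀)))) :
    ∀ (Γ : Type) [Group Γ], LatticeU2 Γ → Super Γ := by
  rintro Γ _ ⟨hicc, E, _, _, i, ht, hi, hl⟩
  obtain ⟨k, _, σ, ι, _, _, J₀, hp, hu, hD, hNC⟩ := nf_typeU2 ht
  haveI : LocallyCompactSpace (FormGroup σ (hyp (0 + 2) 1 J₀)) := by
    haveI : LocallyCompactSpace (SpecialLinearGroup (Idx (0 + 2) ι) k) := H303.locallyCompact_SL
    exact (H303.isClosed_formGroup (continuous_of_norm hD.hn) _).isClosedEmbedding_subtypeVal.locallyCompactSpace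
  haveI : IsClosed (Subgroup.center (FormGroup σ (hyp (0 + 2) 1 J₀)) :
      Set (FormGroup σ (hyp (0 + 2) 1 J₀))) := (finite_centerH hD).isClosed
  exact super_of (super_nc hNC (h k σ ι J₀ hD) hicc i hi ((isLattice_iff _).1 hl))

end Vale.Agent.P092.UN
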