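import Vale.Agent.P092.UN.NfUC
import Vale.Agent.P092.CL.GeoF
import Vale.Agent.P092.CL.Main
import Vale.Agent.P092.CL.FrmP
import Vale.Agent.P092.H874.CLAdm
import Vale.Agent.P092.H678.O.Cls

/-!
P092, [OV] (helper958): the classes `LatticeU` and `LatticeUC` have the interface `HasOver`, from the
core statement for systems of `SU(J) ⧸ centre` and `Sp(J) ⧸ centre`.
-/

set_option linter.all false

open Matrix Filter Topology MeasureTheory

namespace Vale.Agent.P092.UN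

open Vale.Agent.P092.H303 (FormGroup hyp Idx)
open Vale.Agent.P092.H684.Psp (NC lat_nc)
open Vale.Agent.P092.H714.Cl
open Vale.Agent.P092.H85.CU (NfD)
open Vale.Agent.P092.CL
open Vale.Agent.P092.H678.OV (OverStmt HasOver hasOver_of)

section unit

variable {k : Type} [NontriviallyNormedField k] [ProperSpace k] {σ : k →+* k} {ε : k} {ι : Type}
  [Fintype ι] [DecidableEq ι] {J₀ : Matrix ι ι k} {s : ℕ}

/-- `SU(J) ⧸ centre` and `Sp(J) ⧸ centre` are not compact -/
theorem nc_unit (h : NfD σ ε J₀ s) : NoncompactSpace (FormGroup σ (hyp (s + 2) ε J₀) ⧸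
    Subgroup.center (FormGroup σ (hyp (s + 2) ε J₀))) := by
  letI : MeasurableSpace k := borel k
  haveI : BorelSpace k := ⟨rfl⟩
  haveI : Fact (Continuous σ) := ⟨continuous_of_norm h.hn⟩
  haveI := H71.CLG.v2_proper (ε := ε) h.hn
  obtain ⟨r, hr, hr1⟩ := exists_fix h.frm h.hn
  have hr0 : r ≠ 0 := by
    rintro rfl
    rw [norm_zero] at hr1
    linarith
  have hw : r⁻¹ ≠ 0 := inv_ne_zero hr0
  have hσ : σ r⁻¹ = r⁻¹ := by rw [map_inv₀, hr]
  have hw1 : ‖r⁻¹‖ < 1 := by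
    rw [norm_inv]
    exact inv_lt_one_of_one_lt₀ hr1
  exact nc_E (geo h.frm h.wi h.hn hw hσ hw1 Measure.addHaar Measure.addHaar)
    (H874.CLAdm.adm_cen h.hn h.frm hw hσ _ _)

/-- **[OV], one group**, any local field. -/
theorem hasOver_unit {E : Type} [Group E] [TopologicalSpace E] (hD : NfD σ ε J₀ s)
    (hNC : NC E (FormGroup σ (hyp (s + 2) ε J₀) ⧸
      Subgroup.center (FormGroup σ (hyp (s + 2) ε J₀))))
    (h : OverStmt (FormGroup σ (hyp (s + 2) ε J₀) ⧸
      Subgroup.center (FormGroup σ (hyp (s + 2) ε J₀)))) {Γ : Type} [Group Γ]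
    (hicc : ICC Γ) (i : Γ →* E) (hi : Function.Injective i) (hl : IsLattice i.range) :
    HasOver Γ := by
  haveI := H874.CLAdm.t2_quo hD.frm
    (Z := Subgroup.center (FormGroup σ (hyp (s + 2) ε J₀))) le_rfl
  haveI := H874.CLAdm.lc_quo hD.hn (Subgroup.center (FormGroup σ (hyp (s + 2) ε J₀)))
  haveI := H874.CLAdm.sc_quo (Subgroup.center (FormGroup σ (hyp (s + 2) ε J₀)))
  haveI := nc_unit hD
  obtain ⟨i', hi', hl'⟩ := lat_nc hNC hicc i hi ((isLattice_iff _).1 hl)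
  exact hasOver_of h i' hi' hl'

end unit

/-- **The class `LatticeU`**, from the core statement for systems. -/
theorem hasOver_latticeU_of (h : ∀ (k : Type) [NontriviallyNormedField k] [ProperSpace k]
    [IsUltrametricDist k] (σ : k →+* k) (ε : k) (ι : Type) [Fintype ι] [DecidableEq ι]
    (J₀ : Matrix ι ι k) (s : ℕ), NfD σ ε J₀ s →
    OverStmt (FormGroup σ (hyp (s + 2) ε J₀) ⧸
      Subgroup.center (FormGroup σ (hyp (s + 2) ε J₀)))) :
    ∀ (Γ : Type) [Group Γ], LatticeU Γ → HasOver Γ := by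
  rintro Γ _ ⟨hicc, E, _, _, i, ht, hi, hl⟩
  obtain ⟨k, _, σ, ε, ι, _, _, J₀, s, hp, hu, hD, hNC⟩ := nf_typeU ht
  exact hasOver_unit hD hNC (h k σ ε ι J₀ s hD) hicc i hi hl

/-- **The class `LatticeUC`**, from the core statement for systems. -/
theorem hasOver_latticeUC_of (h : ∀ (ι : Type) [Fintype ι] [DecidableEq ι] (J₀ : Matrix ι ι ℂ),
    NfD (starRingEnd ℂ) 1 J₀ 0 → OverStmt (FormGroup (starRingEnd ℂ) (hyp (0 + 2) 1 J₀) ⧸
      Subgroup.center (FormGroup (starRingEnd ℂ) (hyp (0 + 2) 1 J₀)))) :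
    ∀ (Γ : Type) [Group Γ], LatticeUC Γ → HasOver Γ := by
  rintro Γ _ ⟨hicc, E, _, _, i, ht, hi, hl⟩
  obtain ⟨ι, _, _, J₀, hD, hNC⟩ := nf_typeUC ht
  exact hasOver_unit hD hNC (h ι J₀ hD) hicc i hi hl

end Vale.Agent.P092.UN
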