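import Vale.Agent.P092.UN.ClsV
import Vale.Agent.P092.UN.Eqv
import Vale.Agent.P092.H714.FinF
import Vale.Agent.P092.VR.St

/-!
P092 (helper465): the class `UN.Cls` in compact letters agrees with the class `PC.StF.Cls`.
-/

set_option linter.all false

namespace Vale.Agent.P092.UN

theorem quoS_iff {E : Type} [Group E] [TopologicalSpace E] (S : Subgroup E) (G : Type) [Group G]
    [TopologicalSpace G] : QuoS S G ↔ PC.StF.Quo S G := Iff.rfl

theorem isCl_iff (k G : Type) [Field k] [TopologicalSpace k] [Group G] [TopologicalSpace G] :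
    IsCl k G ↔ PC.StF.IsCl k G := Iff.rfl

theorem isSL_iff (D G : Type) [DivisionRing D] [TopologicalSpace D] [Group G] [TopologicalSpace G] :
    IsSL D G ↔ PC.StF.IsSL D G := Iff.rfl

theorem isQuat_iff (k D G : Type) [Field k] [DivisionRing D] [Algebra k D] [TopologicalSpace D]
    [Group G] [TopologicalSpace G] : IsQuat k D G ↔ PC.StF.IsQuat k D G := Iff.rfl

theorem cls_iff (G : Type) [Group G] [TopologicalSpace G] : Cls G ↔ PC.StF.Cls G := by
  constructor
  · rintro ⟨k, _, hp, hk, h⟩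
    exact ⟨k, _, hp, (locK_iff k).1 hk, h⟩
  · rintro ⟨k, _, hp, hk, h⟩
    exact ⟨k, _, hp, (locK_iff k).2 hk, h⟩

theorem classLattice_iff (Γ : Type) [Group Γ] : ClassLattice Γ ↔ PC.StF.ClassLattice Γ := by
  constructor
  · rintro ⟨hicc, I, hI, G, hg, ht, i, hG, hi⟩
    exact ⟨(icc_iff Γ).1 hicc, I, hI, G, hg, ht, i, fun j => (cls_iff _).1 (hG j), (denseLattice_iff i).1 hi⟩
  · rintro ⟨hicc, I, hI, G, hg, ht, i, hG, hi⟩
    exact ⟨(icc_iff Γ).2 hicc, I, hI, G, hg, ht, i, fun j => (cls_iff _).2 (hG j), (denseLattice_iff i).2 hi⟩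

/-- Every group of the class is a factor. -/
theorem cls_qf {G : Type} [Group G] [TopologicalSpace G] (h : Cls G) : ∃ r, QC.QF G r :=
  H714.ClF.clsF_qf ((cls_iff G).1 h)

/-- The classes of overgroups of finite index agree. -/
theorem clsV_vr {G : Type} [Group G] [TopologicalSpace G] (h : ClsV G) : VR.St.ClsV G := by
  obtain ⟨ht, N, hn, hf, ho, hc⟩ := h
  exact ⟨ht, N, inferInstance, inferInstance, N.subtype, (cls_iff N).1 hc,
    continuous_subtype_val, N.subtype_injective, ho.isOpenMap_subtype_val,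
    by rw [N.range_subtype]; exact hn, by rw [N.range_subtype]; exact hf⟩

theorem classLatticeV_vr {Γ : Type} [Group Γ] (h : ClassLatticeV Γ) : VR.St.ClassLatticeV Γ := by
  obtain ⟨hicc, I, hI, G, hg, ht, i, hG, hi⟩ := h
  exact ⟨(icc_iff Γ).1 hicc, I, hI, G, hg, ht, i, fun j => clsV_vr (hG j), (denseLattice_iff i).1 hi⟩

end Vale.Agent.P092.UN
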