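import Vale.Agent.P092.UN.St
import Vale.Agent.P092.H35.Rp.Cls

/-!
P092 (helper25, helper259, helper35): lattices in products of simple groups over local fields of
characteristic zero, of any type. Only definitions.
-/

namespace Vale.Agent.P092.UN

/-- `G` is, for a simple Lie algebra `L` of finite dimension over a local field `k` of characteristic
zero which has an ad-nilpotent element `≠ 0`, a group of automorphisms of `L` which contains the
exponentials of all ad-nilpotent elements. -/
def TypeL (G : Type) [Group G] [TopologicalSpace G] : Prop :=
  ∃ (k : Type) (_ : NontriviallyNormedField k), ProperSpace k ∧ LocK k ∧ CharZero k ∧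
    H35.Rp.IsLie k G

/-- `Γ` is an ICC lattice of a topological group `E` with a proper homomorphism `f` onto a subgroup of
finite index of a finite product of groups `G j` of the class `TypeL`, and the image of `Γ` in no `G j`
is discrete (so every irreducible component of `Γ` has at least two factors). -/
def LatticeL (Γ : Type) [Group Γ] : Prop :=
  ICC Γ ∧ ∃ (J : Type) (_ : Fintype J) (G : J → Type) (_ : ∀ j, Group (G j))
    (_ : ∀ j, TopologicalSpace (G j)) (E : Type) (_ : Group E) (_ : TopologicalSpace E)
    (f : E →* ∀ j, G j) (i : Γ →* E),
    IsTopologicalGroup E ∧ IsProperMap f ∧ f.range.FiniteIndex ∧ Function.Injective i ∧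
    IsLattice i.range ∧ ∀ j, TypeL (G j) ∧ ¬ DiscreteTopology (Set.range fun g => f (i g) j)

end Vale.Agent.P092.UN
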