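import Vale.Agent.P092.UN.StL

/-!
P092 (helper25, helper259): lattices in groups with property (T) of products of groups of type `A_n` over
any local fields and of groups of any type over local fields of characteristic zero. Only definitions.
-/

namespace Vale.Agent.P092.UN

/-- Kazhdan's property (T) of a discrete group: there are a finite subset `Q` and `κ > 0` such that in
every unitary representation without invariant vectors `≠ 0` every vector `v` is moved by at least
`κ ‖v‖` by an element of `Q`. -/
def PropT (Γ : Type) [Group Γ] : Prop :=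
  ∃ (Q : Finset Γ) (κ : ℝ), 0 < κ ∧
    ∀ (H : Type) [NormedAddCommGroup H] [InnerProductSpace ℂ H] [CompleteSpace H]
      (σ : Γ →* (H →L[ℂ] H)), (∀ g v, ‖σ g v‖ = ‖v‖) → (∀ v, (∀ g, σ g v = v) → v = 0) →
        ∀ v, ∃ g ∈ Q, κ * ‖v‖ ≤ ‖σ g v - v‖

/-- Kazhdan's property (T) of a topological group: the same for a compact subset `Q` and the strongly
continuous unitary representations. -/
def KazT (G : Type) [Group G] [TopologicalSpace G] : Prop :=
  ∃ (Q : Set G) (κ : ℝ), IsCompact Q ∧ 0 < κ ∧
    ∀ (H : Type) [NormedAddCommGroup H] [InnerProductSpace ℂ H] [CompleteSpace H]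
      (σ : G →* (H →L[ℂ] H)), (∀ g v, ‖σ g v‖ = ‖v‖) → (∀ v, Continuous fun g => σ g v) →
        (∀ v, (∀ g, σ g v = v) → v = 0) → ∀ v, ∃ g ∈ Q, κ * ‖v‖ ≤ ‖σ g v - v‖

/-- `G` is a closed subgroup of the topological group `A`, up to an isomorphism of topological groups,
which contains the set `S`. -/
def ClosedIn (A G : Type) [Group A] [TopologicalSpace A] [Group G] [TopologicalSpace G]
    (S : Set A) : Prop :=
  ∃ p : G →* A, Topology.IsClosedEmbedding p ∧ ∀ s ∈ S, ∃ e, p e = s

open Matrix in
/-- `G` is a closed subgroup of `PGL_n(k) = GL_n(k)/center`, `n ≥ 3`, `k` a local field in which `n` is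
not zero, which contains the classes of the matrices of determinant one. -/
def TypeP (G : Type) [Group G] [TopologicalSpace G] : Prop :=
  ∃ (k : Type) (_ : NontriviallyNormedField k) (n : ℕ),
    ProperSpace k ∧ LocK k ∧ 3 ≤ n ∧ (n : k) ≠ 0 ∧
    ClosedIn (GL (Fin n) k ⧸ Subgroup.center (GL (Fin n) k)) G
      {x | ∃ g : GL (Fin n) k, g.1.det = 1 ∧ x = QuotientGroup.mk g}

/-- `Γ` is an ICC lattice of a topological group `E` with a proper homomorphism `f` onto a subgroup of
finite index of a finite product of groups `G j`, `Γ` or `E` has property (T), and every `G j` is of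
the class `TypeP`, or it is of the class `TypeL` and the image of `Γ` in `G j` is not discrete. -/
def LatticeM (Γ : Type) [Group Γ] : Prop :=
  ICC Γ ∧ ∃ (J : Type) (_ : Fintype J) (G : J → Type) (_ : ∀ j, Group (G j))
    (_ : ∀ j, TopologicalSpace (G j)) (E : Type) (_ : Group E) (_ : TopologicalSpace E)
    (f : E →* ∀ j, G j) (i : Γ →* E),
    IsTopologicalGroup E ∧ (PropT Γ ∨ KazT E) ∧ IsProperMap f ∧ f.range.FiniteIndex ∧
    Function.Injective i ∧ IsLattice i.range ∧ ∀ j, TypeP (G j) ∨
      TypeL (G j) ∧ ¬ DiscreteTopology (Set.range fun g => f (i g) j)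

end Vale.Agent.P092.UN
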