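import Vale.Agent.P092.UN.St

/-!
P092 (helper188, helper133): lattices of groups isogenous to products of groups `PGL_n(k)`, up to
compact kernels. Only definitions.
-/

namespace Vale.Agent.P092.UN

open Matrix in
/-- `G` is, up to an isomorphism of topological groups, `PGL_n(k) = GL_n(k)/center`, `n ≥ 3`, `k` a
local field, and `T` is the set of the classes of the matrices of determinant one. -/
def IsPGL (G : Type) [Group G] [TopologicalSpace G] (T : Set G) : Prop :=
  ∃ (k : Type) (_ : NontriviallyNormedField k) (n : ℕ) (q : GL (Fin n) k →* G),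
    ProperSpace k ∧ LocK k ∧ 3 ≤ n ∧ Topology.IsQuotientMap q ∧
    q.ker = Subgroup.center (GL (Fin n) k) ∧ T = q '' {g | g.1.det = 1}

/-- `Γ` is an ICC lattice (reducible or not) of a topological group `E` with a proper homomorphism `f`
to a finite product of groups `G j = PGL_n(k)`, `n ≥ 3`, `k` a local field, whose range contains in
every factor the classes of the matrices of determinant one (for example `E` a product of groups
`(SL_n/μ)(k)`, or an extension of a closed subgroup of such a product, containing the groups `SL_n(k)`,
by a compact group). -/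
def LatticeQ (Γ : Type) [Group Γ] : Prop :=
  ICC Γ ∧ ∃ (J : Type) (_ : Fintype J) (_ : DecidableEq J) (G : J → Type) (_ : ∀ j, Group (G j))
    (_ : ∀ j, TopologicalSpace (G j)) (T : ∀ j, Set (G j)) (E : Type) (_ : Group E)
    (_ : TopologicalSpace E) (f : E →* ∀ j, G j) (i : Γ →* E),
    IsTopologicalGroup E ∧ IsProperMap f ∧ (∀ j, IsPGL (G j) (T j)) ∧
    (∀ j, ∀ x ∈ T j, ∃ y, f y = Pi.mulSingle j x) ∧ Function.Injective i ∧ IsLattice i.range

end Vale.Agent.P092.UN
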