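import Vale.Agent.P092.UN.StV
import Vale.Agent.P092.UN.StM
import Vale.Agent.P092.UN.StQ
import Vale.Agent.P092.UN.StL

/-!
P092 (helper932; the proofs of `pgl_iso`, `propT_of_hasT`, `kazT_of_hasTC` are by helper133 and
helper989): the classes of `UN/StV.lean` and those of `UN/StL.lean`, `UN/StM.lean`, `UN/StQ.lean`.
-/

set_option linter.all false

open Matrix

namespace Vale.Agent.P092.UN

theorem typeX_iff {G : Type} [Group G] [TopologicalSpace G] : TypeX G ↔ TypeL G := by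
  constructor
  · rintro ⟨k, i1, L, i2, i3, h1, h2, h3, h4, h5, n, b, ρ, h⟩
    exact ⟨k, i1, h1, h2, h3, L, i2, i3, n, b, ρ, h4, h5, h⟩
  · rintro ⟨k, i1, h1, h2, h3, L, i2, i3, n, b, ρ, h4, h5, h⟩
    exact ⟨k, i1, L, i2, i3, h1, h2, h3, h4, h5, n, b, ρ, h⟩

theorem isPGL_of_pgln {k : Type} [NontriviallyNormedField k] {n : ℕ} {P : Type} [Group P]
    [TopologicalSpace P] {T : Set P} (h : PGLn k n P T) : IsPGL P T := by
  obtain ⟨h1, h2, h3, q, h4, h5, h6⟩ := h
  exact ⟨k, _, n, q, h1, h2, h3, h4, h5, h6⟩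

theorem latticeQ_of_latticeY {Γ : Type} [Group Γ] (h : LatticeY Γ) : LatticeQ Γ := by
  obtain ⟨hi, J, j1, j2, k, k1, n, G, g1, g2, T, E, e1, e2, f, i, h1, h2, h3, h4⟩ := h
  exact ⟨hi, J, j1, j2, G, g1, g2, T, E, e1, e2, f, i, h1, h2, fun j => isPGL_of_pgln (h3 j), h4⟩

/-- A quotient map with kernel the centre identifies its target with the quotient by the centre. -/
theorem pgl_iso {k : Type} [NontriviallyNormedField k] {n : ℕ} {P : Type} [Group P]
    [TopologicalSpace P] {T : Set P} (h : PGLn k n P T) :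
    ∃ e : P →* GL (Fin n) k ⧸ Subgroup.center (GL (Fin n) k), IsHomeomorph e ∧
      ∀ g : GL (Fin n) k, g.1.det = 1 → ∃ x ∈ T, e x = QuotientGroup.mk g := by
  obtain ⟨h1, h2, h3, q, h4, h5, h6⟩ := h
  let e0 : GL (Fin n) k ⧸ Subgroup.center (GL (Fin n) k) ≃* P :=
    (QuotientGroup.quotientMulEquivOfEq h5.symm).trans
      (QuotientGroup.quotientKerEquivOfSurjective q h4.surjective)
  have he0 : ∀ g : GL (Fin n) k, e0 (QuotientGroup.mk g) = q g := fun g => rfl
  have hm : ∀ g : GL (Fin n) k, e0.symm (q g) = QuotientGroup.mk g := fun g => by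
    rw [← he0, MulEquiv.symm_apply_apply]
  have c1 : Continuous e0.symm := by
    rw [h4.continuous_iff]
    have : (e0.symm : P → _) ∘ q =
        (QuotientGroup.mk : GL (Fin n) k → GL (Fin n) k ⧸ Subgroup.center (GL (Fin n) k)) :=
      funext hm
    rw [this]
    exact continuous_quot_mk
  have c2 : Continuous e0 := by
    have hq : Topology.IsQuotientMap
        (QuotientGroup.mk : GL (Fin n) k → GL (Fin n) k ⧸ Subgroup.center (GL (Fin n) k)) :=
      isQuotientMap_quot_mk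
    rw [hq.continuous_iff]
    exact h4.continuous
  refine ⟨e0.symm.toMonoidHom, ?_, ?_⟩
  · exact (Homeomorph.isHomeomorph
      { toEquiv := e0.symm.toEquiv, continuous_toFun := c1, continuous_invFun := c2 })
  · intro g hg
    refine ⟨q g, ?_, hm g⟩
    rw [h6]
    exact ⟨g, hg, rfl⟩

theorem typeP_of_typeZ {G : Type} [Group G] [TopologicalSpace G] (h : TypeZ G) : TypeP G := by
  obtain ⟨k, i1, n, P, i2, i3, T, p, h1, h2, h3, h4⟩ := h
  obtain ⟨e, he, hT⟩ := pgl_iso h1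
  refine ⟨k, i1, n, h1.1, h1.2.1, h1.2.2.1, h2, e.comp p, ?_, ?_⟩
  · exact he.isClosedEmbedding.comp h3
  · rintro _ ⟨g, hg, rfl⟩
    obtain ⟨x, hx, hxe⟩ := hT g hg
    obtain ⟨y, hy⟩ := h4 x hx
    exact ⟨y, by rw [MonoidHom.comp_apply, hy, hxe]⟩

theorem propT_of_hasT {Γ : Type} [Group Γ] (h : HasT Γ) : PropT Γ := by
  obtain ⟨Q, κ, hκ, h⟩ := h
  refine ⟨Q, κ, hκ, fun H _ _ _ σ h2 h5 v => ?_⟩
  refine h H (fun g v => σ g v) (fun g => ⟨fun a b => map_add (σ g) a b, fun c a => map_smul (σ g) c a⟩)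
    h2 (fun v => ?_) (fun g k v => ?_) h5 v
  · rw [map_one]; rfl
  · rw [map_mul]; rfl

theorem kazT_of_hasTC {G : Type} [Group G] [TopologicalSpace G] (h : HasTC G) : KazT G := by
  obtain ⟨Q, κ, hQ, hκ, h⟩ := h
  refine ⟨Q, κ, hQ, hκ, fun H _ _ _ σ h2 hc h5 v => ?_⟩
  refine h H (fun g v => σ g v) (fun g => ⟨fun a b => map_add (σ g) a b, fun c a => map_smul (σ g) c a⟩)
    h2 (fun v => ?_) (fun g k v => ?_) hc h5 v
  · rw [map_one]; rfl
  · rw [map_mul]; rfl

end Vale.Agent.P092.UN
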