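import Mathlib

/-!
P092 (helper25, helper465): central quotients. Only a definition.
-/

namespace Vale.Agent.P092.UN

/-- `G` is the quotient of `S` by a central subgroup, up to an isomorphism of topological groups. -/
def Quo (S G : Type) [Group S] [TopologicalSpace S] [Group G] [TopologicalSpace G] : Prop :=
  ∃ f : S →* G, Topology.IsQuotientMap f ∧ f.ker ≤ Subgroup.center S

end Vale.Agent.P092.UN
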