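import Vale.Agent.P092.UN.St

/-!
P092 (helper719): lattices in products of groups between `PSL_n(k)` and `PGL_n(k)`, up to compact
central kernels. Only definitions.
-/

namespace Vale.Agent.P092.UN

open Matrix in
/-- `E` is a Hausdorff topological group with a proper continuous homomorphism to
`PGL_n(k) = GL_n(k)/center`, `n ≥ 3`, `k` a local field, whose kernel is central and whose range
contains the classes of the matrices of determinant one (for example `SL_n(k)`, `PSL_n(k)`,
`PGL_n(k)`). -/
def TypeG (E : Type) [Group E] [TopologicalSpace E] : Prop :=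
  IsTopologicalGroup E ∧ T2Space E ∧ ∃ (k : Type) (_ : NontriviallyNormedField k) (n : ℕ)
    (p : E →* GL (Fin n) k ⧸ Subgroup.center (GL (Fin n) k)),
    ProperSpace k ∧ LocK k ∧ 3 ≤ n ∧ Continuous p ∧ (∀ C, IsCompact C → IsCompact (p ⁻¹' C)) ∧
    p.ker ≤ Subgroup.center E ∧
    ∀ g : GL (Fin n) k, g.1.det = 1 → ∃ e, p e = QuotientGroup.mk g

/-- `Γ` is an ICC lattice (reducible or not) in a finite product of groups of the class `TypeG`. -/
def LatticeG (Γ : Type) [Group Γ] : Prop :=
  ICC Γ ∧ ∃ (I : Type) (_ : Fintype I) (E : I → Type) (_ : ∀ j, Group (E j))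
    (_ : ∀ j, TopologicalSpace (E j)) (i : Γ →* ∀ j, E j),
    (∀ j, TypeG (E j)) ∧ Function.Injective i ∧ IsLattice i.range

end Vale.Agent.P092.UN
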