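import Vale.Agent.P092.UN.St

/-!
P092 (helper188): lattices of groups isogenous to products of groups `PGL_n(k)`, up to compact
kernels. Only definitions.
-/

namespace Vale.Agent.P092.UN

open Matrix in
/-- `Γ` is an ICC lattice (reducible or not) of a topological group `E` with a proper homomorphism `p`
to a finite product of groups `PGL_n(k) = GL_n(k)/center`, `n ≥ 3`, `k` a local field, whose range
contains in every factor the classes of the matrices of determinant one (for example `E` a product of
groups `(SL_n/μ)(k)`, or an extension of a closed subgroup of such a product, containing the groups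
`SL_n(k)`, by a compact group). -/
def LatticeP (Γ : Type) [Group Γ] : Prop :=
  ICC Γ ∧ ∃ (J : Type) (_ : Fintype J) (_ : DecidableEq J) (k : J → Type)
    (_ : ∀ j, NontriviallyNormedField (k j)) (n : J → ℕ) (E : Type) (_ : Group E)
    (_ : TopologicalSpace E)
    (p : E →* ∀ j, GL (Fin (n j)) (k j) ⧸ Subgroup.center (GL (Fin (n j)) (k j))) (i : Γ →* E),
    IsTopologicalGroup E ∧ (∀ j, ProperSpace (k j) ∧ LocK (k j) ∧ 3 ≤ n j) ∧ IsProperMap p ∧
    (∀ j (g : GL (Fin (n j)) (k j)), g.1.det = 1 →
      ∃ e, p e = Pi.mulSingle j (QuotientGroup.mk g)) ∧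
    Function.Injective i ∧ IsLattice i.range

end Vale.Agent.P092.UN
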