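import Vale.Agent.P092.UN.StUC
import Vale.Agent.P092.UN.NfU

/-!
P092, TRACK H (helper85): the lattices of `UN.LatticeUC` in normal form; the top of the assembly from
the core statement of `PSU(J)`, `J` Hermitian of Witt index two over `ℂ`.
-/

set_option linter.all false

open Matrix Filter Topology

namespace Vale.Agent.P092.UN

open Vale.Agent.P092.H303 (FormGroup hyp Idx)
open Vale.Agent.P092.H684.Psp (NC super_nc)
open Vale.Agent.P092.H714.Cl
open Vale.Agent.P092.SN (CoreE)
open Vale.Agent.P092.H85.CU (NfD)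

/-- **One group**, any local field: the core statement of `SU(J) ⧸ centre` gives the ICC lattices of
all groups with a proper central quotient `SU(J) ⧸ centre`. -/
theorem super_unit {E : Type} [Group E] [TopologicalSpace E] {k : Type}
    [NontriviallyNormedField k] [ProperSpace k] {σ : k →+* k} {ε : k} {ι : Type} [Fintype ι]
    [DecidableEq ι] {J₀ : Matrix ι ι k} {s : ℕ} (hD : NfD σ ε J₀ s)
    (hNC : NC E (FormGroup σ (hyp (s + 2) ε J₀) ⧸
      Subgroup.center (FormGroup σ (hyp (s + 2) ε J₀))))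
    (h : CoreE (FormGroup σ (hyp (s + 2) ε J₀) ⧸
      Subgroup.center (FormGroup σ (hyp (s + 2) ε J₀)))) {Γ : Type} [Group Γ]
    (hicc : ICC Γ) (i : Γ →* E) (hi : Function.Injective i) (hl : IsLattice i.range) :
    Super Γ := by
  haveI : LocallyCompactSpace (FormGroup σ (hyp (s + 2) ε J₀)) := by
    haveI : LocallyCompactSpace (SpecialLinearGroup (Idx (s + 2) ι) k) := H303.locallyCompact_SL
    exact (H303.isClosed_formGroup (continuous_of_norm hD.hn) _).isClosedEmbedding_subtypeVal.locallyCompactSpace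
  haveI : IsClosed (Subgroup.center (FormGroup σ (hyp (s + 2) ε J₀)) :
      Set (FormGroup σ (hyp (s + 2) ε J₀))) := (finite_centerD hD).isClosed
  exact super_of (super_nc hNC h hicc i hi ((isLattice_iff _).1 hl))

/-- the data of `SU(2, n)` in normal form -/
theorem nfD_conj {ι : Type} [Fintype ι] [DecidableEq ι] {J₀ : Matrix ι ι ℂ}
    (han : IsAn (starRingEnd ℂ) 1 J₀) : NfD (starRingEnd ℂ) 1 J₀ 0 :=
  nfD_of (s := 0) Complex.continuous_conj Complex.conj_conj (one_mul 1) (map_one _) han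
    (Or.inl ⟨Complex.I, fun h => by
      have h1 := congrArg Complex.im h
      norm_num at h1⟩) (Or.inl two_ne_zero)

/-- the groups of the class in normal form -/
theorem nf_typeUC {E : Type} [Group E] [TopologicalSpace E] (h : TypeUC E) :
    ∃ (ι : Type) (_ : Fintype ι) (_ : DecidableEq ι) (J₀ : Matrix ι ι ℂ),
      NfD (starRingEnd ℂ) 1 J₀ 0 ∧ NC E (FormGroup (starRingEnd ℂ) (hyp (0 + 2) 1 J₀) ⧸
        Subgroup.center (FormGroup (starRingEnd ℂ) (hyp (0 + 2) 1 J₀))) := by
  obtain ⟨ι, _, _, J₀, S, han, hS, hQ⟩ := h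
  obtain rfl : S = FormGroup (starRingEnd ℂ) (hyp (0 + 2) 1 J₀) := by
    ext g
    exact hS g
  have h := nfD_conj han
  exact ⟨ι, _, _, J₀, h, nc_quoS (finite_centerD h) hQ⟩

/-- **The class `LatticeUC` from the core statement of the groups `PSU(2, n)`.** -/
theorem super_latticeUC (h : ∀ (ι : Type) [Fintype ι] [DecidableEq ι] (J₀ : Matrix ι ι ℂ),
    NfD (starRingEnd ℂ) 1 J₀ 0 → CoreE (FormGroup (starRingEnd ℂ) (hyp (0 + 2) 1 J₀) ⧸
      Subgroup.center (FormGroup (starRingEnd ℂ) (hyp (0 + 2) 1 J₀)))) :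
    ∀ (Γ : Type) [Group Γ], LatticeUC Γ → Super Γ := by
  rintro Γ _ ⟨hicc, E, _, _, i, ht, hi, hl⟩
  obtain ⟨ι, _, _, J₀, hD, hNC⟩ := nf_typeUC ht
  exact super_unit hD hNC (h ι J₀ hD) hicc i hi hl

end Vale.Agent.P092.UN
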