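import Vale.Agent.P092.H515.RkDef
import Vale.Agent.P092.H35.Rp.Cls

/-!
P092 (helper25, helper944, helper465): the class of groups with a rank of the final statement
`RankAll`. Only definitions.
-/

namespace Vale.Agent.P092.UN

open Vale.Agent.P092.H515.St (LocK form)
open Vale.Agent.P092.H35.Rp (IsExp)

/-- `L` has `r` linearly independent commuting elements `x` such that `y ↦ [x, y]` is diagonalizable
over `k`. -/
def Split (k L : Type) [Field k] [LieRing L] [LieAlgebra k L] (r : ℕ) : Prop :=
  ∃ x : Fin r → L, LinearIndependent k x ∧ (∀ i j, ⁅x i, x j⁆ = 0) ∧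
    ∀ i, ∃ (n : ℕ) (b : Module.Basis (Fin n) k L), ∀ j, ∃ c : k, ⁅x i, b j⁆ = c • b j

/-- `G` is a group of automorphisms of a simple Lie algebra `L` over `k` which contains the
exponentials of all ad-nilpotent elements of `L` (with the topology of the matrix coefficients), `L` has
an ad-nilpotent element `x ≠ 0`, and `r` is the largest number with `Split k L r`. -/
def IsLieR (k G : Type) [Field k] [TopologicalSpace k] [Group G] [TopologicalSpace G] (r : ℕ) :
    Prop :=
  ∃ (L : Type) (_ : LieRing L) (_ : LieAlgebra k L) (n : ℕ) (b : Module.Basis (Fin n) k L)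
    (ρ : G →* Module.End k L), LieAlgebra.IsSimple k L ∧ (∃ x : L, x ≠ 0 ∧ ∃ ψ, IsExp k x ψ) ∧
    (∀ g (x y : L), ρ g ⁅x, y⁆ = ⁅ρ g x, ρ g y⁆) ∧ (∀ x ψ, IsExp k x ψ → ∃ g, ⇑(ρ g) = ψ) ∧
    Topology.IsEmbedding (fun g (i j : Fin n) => b.repr (ρ g (b j)) i) ∧
    Split k L r ∧ ¬ Split k L (r + 1)

/-- The smallest class of topological groups with a number (the rank) which contains, for every local
field `k`, the groups `SL_{n+1}(k)` of rank `n`, the special isometry groups of `(ε, σ)`-hermitian forms
which are the sum of `q` hyperbolic planes and an anisotropic form `J₀`, of rank `q`, if `P q`, for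
every local field `k` of characteristic zero the groups `IsLieR k G r`, of rank `r`, and is closed under
products and under the passage from `G` to a group `E` with a proper homomorphism onto a subgroup of
finite index of `G`. -/
inductive RkL (P : ℕ → Prop) : (G : Type) → [Group G] → [TopologicalSpace G] → ℕ → Prop
  | sl (k : Type) [NontriviallyNormedField k] [ProperSpace k] (hk : LocK k) (n : ℕ) :
      RkL P (Matrix.SpecialLinearGroup (Fin (n + 1)) k) n
  | isom (k : Type) [NontriviallyNormedField k] [ProperSpace k] (hk : LocK k)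
      (σ : k →+* k) (hσ : ∀ x, σ (σ x) = x) (hn : ∀ x, ‖σ x‖ = ‖x‖)
      (ε : k) (hε : ε * ε = 1) (hσε : σ ε = ε)
      (ι : Type) [Fintype ι] [DecidableEq ι] (J₀ : Matrix ι ι k)
      (hJ : ∀ v : ι → k, v ≠ 0 → v ⬝ᵥ (J₀.mulVec fun l => σ (v l)) ≠ 0)
      (q : ℕ) (hq : P q)
      (G : Subgroup (Matrix.SpecialLinearGroup ((Fin q ⊕ Fin q) ⊕ ι) k))
      (hG : ∀ g, g ∈ G ↔ g.1 * form q ε J₀ * (g.1.map σ).transpose = form q ε J₀) :
      RkL P G q
  | lie (k : Type) [NontriviallyNormedField k] [ProperSpace k] [CharZero k] (hk : LocK k)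
      (G : Type) [Group G] [TopologicalSpace G] (r : ℕ) (h : IsLieR k G r) : RkL P G r
  | prod (G H : Type) [Group G] [TopologicalSpace G] [Group H] [TopologicalSpace H] (r s : ℕ)
      (hG : RkL P G r) (hH : RkL P H s) : RkL P (G × H) (r + s)
  | ext (E G : Type) [Group E] [TopologicalSpace E] [IsTopologicalGroup E] [Group G]
      [TopologicalSpace G] (r : ℕ) (f : E →* G) (hf : IsProperMap f) (hr : f.range.FiniteIndex)
      (hG : RkL P G r) : RkL P E r

end Vale.Agent.P092.UN
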