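import Vale.Agent.P092.UN.St
import Vale.Agent.P092.UN.Quo

/-!
P092 (helper25): lattices in products of groups of type `A_n`, `n ≥ 2`. Only definitions.
-/

namespace Vale.Agent.P092.UN

/-- `E` is the quotient of `SL_n(k)` by a central subgroup, `n ≥ 3`, `k` a local field, up to an
isomorphism of topological groups. -/
def TypeA (E : Type) [Group E] [TopologicalSpace E] : Prop :=
  ∃ (k : Type) (_ : NontriviallyNormedField k) (n : ℕ), ProperSpace k ∧ LocK k ∧ 3 ≤ n ∧
    Quo (Matrix.SpecialLinearGroup (Fin n) k) E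

/-- `Γ` is an ICC lattice (reducible or not) in a finite product of groups `SL_n(k)/Z`, `Z` central,
`n ≥ 3`, `k` a local field. -/
def LatticeA (Γ : Type) [Group Γ] : Prop :=
  ICC Γ ∧ ∃ (I : Type) (_ : Fintype I) (E : I → Type) (_ : ∀ j, Group (E j))
    (_ : ∀ j, TopologicalSpace (E j)) (i : Γ →* ∀ j, E j),
    (∀ j, TypeA (E j)) ∧ Function.Injective i ∧ IsLattice i.range

end Vale.Agent.P092.UN
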