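import Vale.Agent.P092.H160.Defs

/-!
P092 (helper25): the definitions used in the final statements, in a form which prints shortly. Only
definitions and the existence of the operators `u_g`.
-/

open MeasureTheory

namespace Vale.Agent.P092.UN

/-! ### The group von Neumann algebra -/

/-- The Hilbert space `ℓ²(X)`. -/
abbrev Ell2 (X : Type) : Type := lp (fun _ : X => ℂ) 2

/-- Bounded operators on `ℓ²(X)`. -/
abbrev Op (X : Type) : Type := Ell2 X →L[ℂ] Ell2 X

open Classical in
/-- The basis vector `δ_x` of `ℓ²(X)`. -/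
noncomputable def dl {X : Type} (x : X) : Ell2 X := lp.single 2 x (1 : ℂ)

/-- The value `T ξ`. -/
noncomputable def ap {X : Type} (T : Op X) (ξ : Ell2 X) : Ell2 X := T ξ

/-- The composition `S T`. -/
noncomputable def mul {X : Type} (S T : Op X) : Op X := S.comp T

/-- The sum `S + T`. -/
noncomputable def add {X : Type} (S T : Op X) : Op X := S + T

/-- `T` is the multiple `c S`. -/
def IsSmul {X : Type} (c : ℂ) (S T : Op X) : Prop := ∀ (ξ : Ell2 X) (x : X), ap T ξ x = c * ap S ξ x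

/-- `T` is the adjoint `S*` of `S`: `⟨S δ_y, δ_x⟩ = ⟨δ_y, T δ_x⟩`. -/
def IsAdj {X : Type} (S T : Op X) : Prop := ∀ x y : X, ap T (dl x) y = star (ap S (dl y) x)

/-- The unitary `u_g` exists: the bounded operator with `u_g δ_x = δ_{gx}`. -/
theorem exists_u {G : Type} [Group G] (g : G) : ∃ U : Op G, ∀ x : G, ap U (dl x) = dl (g * x) := by
  refine ⟨Vale.Agent.P092.H160.lam g, fun x => ?_⟩
  ext y
  change (dl x : Ell2 G) (g⁻¹ * y) = (dl (g * x) : Ell2 G) y
  by_cases h : y = g * x
  · subst h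
    simp [dl, lp.single_apply]
  · have h' : g⁻¹ * y ≠ x := fun e => h (inv_mul_eq_iff_eq_mul.1 e)
    simp [dl, lp.single_apply, h, h']

/-- The left regular unitary `u_g`: the bounded operator with `u_g δ_x = δ_{gx}`. -/
noncomputable def u {G : Type} [Group G] (g : G) : Op G := (exists_u g).choose

/-- Membership in `L(G) = {u_g}''`. -/
def InL {G : Type} [Group G] (T : Op G) : Prop :=
  ∀ S : Op G, (∀ g : G, mul S (u g) = mul (u g) S) → mul T S = mul S T

/-! ### Amplifications -/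

/-- The `n × n` matrices of bounded operators on `ℓ²(G)`. -/
abbrev MOp (n : ℕ) (G : Type) : Type := Fin n → Fin n → Op G

/-- Membership in `M_n(L(G))`: all entries lie in `L(G)`. -/
def InM {n : ℕ} {G : Type} [Group G] (A : MOp n G) : Prop := ∀ i j, InL (A i j)

/-- The matrix product `A B`. -/
noncomputable def mmul {n : ℕ} {G : Type} (A B : MOp n G) : MOp n G :=
  fun i j => ∑ k, mul (A i k) (B k j)

/-- The sum `A + B`. -/
noncomputable def madd {n : ℕ} {G : Type} (A B : MOp n G) : MOp n G := fun i j => add (A i j) (B i j)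

/-- `B` is the multiple `c A`. -/
def IsMSmul {n : ℕ} {G : Type} (c : ℂ) (A B : MOp n G) : Prop := ∀ i j, IsSmul c (A i j) (B i j)

/-- `B` is the adjoint `A*`: the entry `B_ji` is the adjoint of `A_ij`. -/
def IsMAdj {n : ℕ} {G : Type} (A B : MOp n G) : Prop := ∀ i j, IsAdj (A i j) (B j i)

/-- The trace `(Tr ⊗ τ)(A)`, the sum of the traces `⟨A_ii δ_e, δ_e⟩`. -/
noncomputable def mtr {n : ℕ} {G : Type} [Group G] (A : MOp n G) : ℂ := ∑ i, ap (A i i) (dl 1) 1

/-- `p` is a projection of `M_n(L(G))`. -/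
structure IsProj {n : ℕ} {G : Type} [Group G] (p : MOp n G) : Prop where
  mem : InM p
  adj : IsMAdj p p
  idem : mmul p p = p

/-- Membership in the corner `p M_n(L(G)) p`. -/
def InC {n : ℕ} {G : Type} [Group G] (p A : MOp n G) : Prop := InM A ∧ mmul p A = A ∧ mmul A p = A

/-- A `*`-isomorphism from `L(Γ)` onto `p M_n(L(Λ)) p`. -/
structure CornerIso (Γ Λ : Type) [Group Γ] [Group Λ] (n : ℕ) (p : MOp n Λ) where
  /-- the map (only its values on `L(Γ)` matter) -/
  toFun : Op Γ → MOp n Λ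
  /-- the inverse map (only its values on the corner matter) -/
  invFun : MOp n Λ → Op Γ
  map_mem : ∀ T, InL T → InC p (toFun T)
  inv_mem : ∀ A, InC p A → InL (invFun A)
  left_inv : ∀ T, InL T → invFun (toFun T) = T
  right_inv : ∀ A, InC p A → toFun (invFun A) = A
  map_add : ∀ S T, InL S → InL T → toFun (add S T) = madd (toFun S) (toFun T)
  map_smul : ∀ c S T, InL S → InL T → IsSmul c S T → IsMSmul c (toFun S) (toFun T)
  map_mul : ∀ S T, InL S → InL T → toFun (mul S T) = mmul (toFun S) (toFun T)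
  map_adj : ∀ S T, InL S → InL T → IsAdj S T → IsMAdj (toFun S) (toFun T)

/-- `θ` is canonical: `θ(u_g) = χ(g) w v_{δ(g)} w*` for a group isomorphism `δ : Γ → Λ`, a
character `χ : Γ → 𝕋` and a column `w` of elements of `L(Λ)` with `w* w = 1` and `w w* = p`
(`w' = w*`). -/
def CanonicalM {Γ Λ : Type} [Group Γ] [Group Λ] {n : ℕ} {p : MOp n Λ}
    (θ : CornerIso Γ Λ n p) : Prop :=
  ∃ (δ : Γ ≃* Λ) (χ : Γ →* Circle) (w w' : Fin n → Op Λ),
    (∀ i, InL (w i)) ∧ (∀ i, IsAdj (w i) (w' i)) ∧ (∑ i, mul (w' i) (w i)) = u 1 ∧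
    (∀ i j, mul (w i) (w' j) = p i j) ∧
    ∀ (g : Γ) (i j : Fin n), IsSmul (χ g) (mul (mul (w i) (u (δ g))) (w' j)) (θ.toFun (u g) i j)

/-- `G` is ICC: every nontrivial conjugacy class is infinite. -/
def ICC (G : Type) [Group G] : Prop := ∀ g : G, g ≠ 1 → Set.Infinite {y : G | ∃ h, y = h * g * h⁻¹}

/-- The conclusion of Q1 for `Γ`: if `Λ` is any countable ICC group and `θ` is an isomorphism of
`L(Γ)` onto the amplification `p M_n(L(Λ)) p`, then `p` has trace `1` and `θ` is canonical. -/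
def SuperAll (Γ : Type) [Group Γ] : Prop :=
  ∀ (Λ : Type) [Group Λ] [Countable Λ], ICC Λ → ∀ (n : ℕ) (p : MOp n Λ), IsProj p →
    ∀ θ : CornerIso Γ Λ n p, mtr p = 1 ∧ CanonicalM θ

/-! ### Lattices -/

/-- The normed field `k` is `ℝ`, `ℂ` or non-archimedean. -/
inductive LocK (k : Type) [NontriviallyNormedField k] : Prop
  | real (φ : k ≃+* ℝ) (h : ∀ x, ‖φ x‖ = ‖x‖) : LocK k
  | cplx (φ : k ≃+* ℂ) (h : ∀ x, ‖φ x‖ = ‖x‖) : LocK k
  | ultra (h : IsUltrametricDist k) : LocK k

/-- `Λ` is a lattice of `G`: it is discrete and `G/Λ` carries a nonzero finite invariant Borel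
measure. -/
structure IsLattice {G : Type} [Group G] [TopologicalSpace G] (Λ : Subgroup G) : Prop where
  disc : DiscreteTopology Λ
  covol : ∃ ν : @Measure (G ⧸ Λ) (borel (G ⧸ Λ)), ν ≠ 0 ∧ ν Set.univ < ⊤ ∧
    ∀ (g : G) (s : Set (G ⧸ Λ)), MeasurableSet[borel (G ⧸ Λ)] s → ν ((fun x => g • x) ⁻¹' s) = ν s

/-- `i` identifies `Γ` with a lattice of the product of the groups `G j` whose projections to all the
factors `G j` are dense. -/
structure DenseLattice {Γ I : Type} {G : I → Type} [Group Γ] [∀ j, Group (G j)]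
    [∀ j, TopologicalSpace (G j)] (i : Γ →* ∀ j, G j) : Prop where
  inj : Function.Injective i
  lat : IsLattice i.range
  dense : ∀ j, DenseRange fun g => i g j

end Vale.Agent.P092.UN
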