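import Vale.Agent.P092.UN.StV

/-!
P092 (helper144, helper736, helper932): lattices in products of simple groups, every irreducible component
of which has at least two factors (of any type over local fields of characteristic zero, classical over
any local fields) or is of type `A_n`, `n ≥ 2`, over any local field. Only definitions.
-/

namespace Vale.Agent.P092.UN

/-- `G` is, up to an isomorphism of topological groups, a closed subgroup of `PGL_n(k)`, `n ≥ 3`, `k` a
local field, which contains the classes of the matrices of determinant one. -/
def TypeY (G : Type) [Group G] [TopologicalSpace G] : Prop :=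
  ∃ (k : Type) (_ : NontriviallyNormedField k) (n : ℕ) (P : Type) (_ : Group P)
    (_ : TopologicalSpace P) (T : Set P) (p : G →* P), PGLn k n P T ∧
    Topology.IsClosedEmbedding p ∧ ∀ x ∈ T, ∃ g, p g = x

/-- The group `Γ` is embedded by `i` as a lattice of the topological group `E`, and `f` is a proper
homomorphism of `E` onto a subgroup of finite index of the product of the groups `G j`; every `G j` is a
group `TypeY` and `Γ` or `E` has property (T), or it is a group `ClsV` or `TypeX` in which the image of
`Γ` is not discrete. -/
def LatZ (Γ : Type) [Group Γ] (J : Type) [Fintype J] (G : J → Type) [∀ j, Group (G j)]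
    [∀ j, TopologicalSpace (G j)] (E : Type) [Group E] [TopologicalSpace E] (f : E →* ∀ j, G j)
    (i : Γ →* E) : Prop :=
  IsTopologicalGroup E ∧ IsProperMap f ∧ f.range.FiniteIndex ∧ Function.Injective i ∧
    IsLattice i.range ∧ ∀ j, (HasT Γ ∨ HasTC E) ∧ TypeY (G j) ∨
      (ClsV (G j) ∨ TypeX (G j)) ∧ ¬ DiscreteTopology (Set.range fun g => f (i g) j)

/-- `Γ` is an ICC lattice of a topological group `E` with a proper homomorphism onto a subgroup of finite
index of a finite product of groups, as in `LatZ`. -/
def LatticeZ (Γ : Type) [Group Γ] : Prop :=
  ICC Γ ∧ ∃ (J : Type) (_ : Fintype J) (G : J → Type) (_ : ∀ j, Group (G j))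
    (_ : ∀ j, TopologicalSpace (G j)) (E : Type) (_ : Group E) (_ : TopologicalSpace E)
    (f : E →* ∀ j, G j) (i : Γ →* E), LatZ Γ J G E f i

end Vale.Agent.P092.UN
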