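import Vale.Agent.P092.UN.Cls

/-!
P092 (helper85, helper142, helper387): lattices in the isometry groups of hermitian, alternating and
symmetric forms of Witt index at least two over non-archimedean local fields, and of Witt index two
over `ℝ` and `ℂ`, modulo central subgroups. Only definitions.
-/

open Matrix
open scoped commutatorElement

namespace Vale.Agent.P092.UN

/-- `E` is, modulo a central subgroup, a group `SU(J)`, `Sp(J)` (`q ≥ 3` in characteristic two), or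
`Ω(J) = [SO(J), SO(J)]` (in characteristic not two, `J₀ ≠ 0`, `k` not quadratically closed), where `J`
is the sum of `q` hyperbolic planes and an anisotropic form `J₀` over `k`. -/
def IsPol (k E : Type) [Field k] [TopologicalSpace k] [Group E] [TopologicalSpace E] (q : ℕ) :
    Prop :=
  ∃ (σ : k →+* k) (ε : k) (ι : Type) (_ : Fintype ι) (_ : DecidableEq ι) (J₀ : Matrix ι ι k)
    (S : Subgroup (SpecialLinearGroup ((Fin q ⊕ Fin q) ⊕ ι) k)),
    Continuous σ ∧ (∀ x, σ (σ x) = x) ∧ IsAn σ ε J₀ ∧ (∀ g, g ∈ S ↔ IsIsom σ ε J₀ q g.1) ∧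
    (((∃ c, σ c ≠ c) ∧ ε = 1 ∨ (∀ c, σ c = c) ∧ ε = -1 ∧ IsEmpty ι ∧ ((2 : k) ≠ 0 ∨ 3 ≤ q)) ∧
        QuoS S E ∨
      (∀ c, σ c = c) ∧ ε = 1 ∧ (2 : k) ≠ 0 ∧ Nonempty ι ∧ (∃ x : k, ∀ y, y * y ≠ x) ∧
        QuoS (E := SpecialLinearGroup ((Fin q ⊕ Fin q) ⊕ ι) k) ⁅S, S⁆ E)

/-- `E` is a group of the class `IsPol` over a non-archimedean local field, `q ≥ 2`, or over `ℝ` or
`ℂ`, `q = 2`. -/
def TypeW (E : Type) [Group E] [TopologicalSpace E] : Prop :=
  (∃ (k : Type) (_ : NontriviallyNormedField k) (q : ℕ), ProperSpace k ∧ IsUltrametricDist k ∧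
    2 ≤ q ∧ IsPol k E q) ∨ IsPol ℝ E 2 ∨ IsPol ℂ E 2

/-- `Γ` is an ICC lattice in a group of the class `TypeW`. -/
def LatticeW (Γ : Type) [Group Γ] : Prop :=
  ICC Γ ∧ ∃ (E : Type) (_ : Group E) (_ : TopologicalSpace E) (i : Γ →* E),
    TypeW E ∧ Function.Injective i ∧ IsLattice i.range

end Vale.Agent.P092.UN
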