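import Vale.Agent.P092.UN.St

/-!
P092 (helper133): the conclusion for the groups `PSL_n(R)` and `PSp_{2n}(R)`. Only definitions.
-/

namespace Vale.Agent.P092.UN

/-- The conclusion `SuperAll` for the group `PSL_n(R) = SL_n(R)/center`. -/
def SuperSL (R : Type) [CommRing R] (n : ℕ) : Prop :=
  SuperAll (Matrix.SpecialLinearGroup (Fin n) R ⧸
    Subgroup.center (Matrix.SpecialLinearGroup (Fin n) R))

/-- The conclusion `SuperAll` for the group `PSp_{2n}(R) = Sp_{2n}(R)/center`. -/
def SuperSp (R : Type) [CommRing R] (n : ℕ) : Prop :=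
  SuperAll (Matrix.symplecticGroup (Fin n) R ⧸ Subgroup.center (Matrix.symplecticGroup (Fin n) R))

end Vale.Agent.P092.UN
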