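import Vale.Agent.P092.UN.St
import Vale.Agent.P092.UN.Quo

/-!
P092 (helper421; the shape of `UN/StC` of helper25, helper805): lattices in `Sp_4(k)/Z`, `k` any
local field of characteristic different from two. Only definitions.
-/

namespace Vale.Agent.P092.UN

/-- `E` is, up to an isomorphism of topological groups, the quotient of the symplectic group
`Sp_4(k)` by a central subgroup, where `k` is a local field (`ℝ`, `ℂ` or non-archimedean) of
characteristic different from two. -/
def TypeC3 (E : Type) [Group E] [TopologicalSpace E] : Prop :=
  ∃ (k : Type) (_ : NontriviallyNormedField k), ProperSpace k ∧ LocK k ∧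
    (2 : k) ≠ 0 ∧ Quo (Matrix.symplecticGroup (Fin 2) k) E

/-- `Γ` is an ICC lattice in a group of the class `TypeC3`. -/
def LatticeC3 (Γ : Type) [Group Γ] : Prop :=
  ICC Γ ∧ ∃ (E : Type) (_ : Group E) (_ : TopologicalSpace E) (i : Γ →* E),
    TypeC3 E ∧ Function.Injective i ∧ IsLattice i.range

end Vale.Agent.P092.UN
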