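import Vale.Agent.P092.UN.FinW0
import Vale.Agent.P092.H99.HT.Over

/-!
P092 (helper85): the conclusion of Q1 for all ICC groups with a subgroup of finite index of the class
`LatticeW`: the isometry groups of hermitian, alternating and symmetric forms of Witt index at least
two over non-archimedean local fields, of Witt index two over `ℝ` and `ℂ`.
-/

set_option linter.all false

namespace Vale.Agent.P092.UN

open Vale.Agent.P092.H678.OV (HasOver superAll_hasOver)

/-- the class `LatticeW` has the interface `HasOver` -/
theorem hasOver_latticeW : ∀ (Γ : Type) [Group Γ], LatticeW Γ → HasOver Γ :=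
  hasOver_latticeW_of H99.HT.hasOver_su

/-- **The conclusion of Q1 for the class `LatticeW`.** -/
theorem latticeW_superAll (Γ : Type) [Group Γ] (h : LatticeW Γ) : SuperAll Γ :=
  superAll_hasOver h.1 (hasOver_latticeW Γ h)

/-- **All ICC groups with a subgroup of finite index in the class `LatticeW`.** -/
theorem superAll_virtW {Γ : Type} [Group Γ] (hicc : ICC Γ) {Γ₀ : Subgroup Γ}
    (hfi : Γ₀.FiniteIndex) (h : LatticeW Γ₀) : SuperAll Γ :=
  superAll_virtW_of H99.HT.hasOver_su hicc hfi h

end Vale.Agent.P092.UN
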