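import Vale.Agent.P092.UN.StL
import Vale.Agent.P092.H259.Fk.Fin

/-!
P092 (helper25): the class `LatticeL` is contained in `ClassLatticeF`; the theorem for it.
-/

namespace Vale.Agent.P092.UN

theorem classLatticeF_of_latticeL {Γ : Type} [Group Γ] (h : LatticeL Γ) : ClassLatticeF Γ := by
  obtain ⟨hi, J, j1, G, g1, g2, E, e1, e2, f, i, h1, h2, h3, h4, h5, h6⟩ := h
  exact ⟨hi, J, j1, G, g1, g2, E, e1, e2, f, i, h1, h2, h3, h4, h5, fun j => Or.inr (h6 j)⟩

/-- **Q1 for the lattices `LatticeL`**, all amplifications. -/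
theorem latticeL_superAll (Γ : Type) [Group Γ] (h : LatticeL Γ) : SuperAll Γ :=
  H259.Fk.superAll_classF Γ (classLatticeF_of_latticeL h)

end Vale.Agent.P092.UN
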