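import Vale.Agent.P092.UN.Cls

/-!
P092 (helper85): lattices in `Sp(J)` and `SU(J)`, of Witt index at least two, over non-archimedean
local fields, modulo central subgroups. Only definitions.
-/

open Matrix

namespace Vale.Agent.P092.UN

/-- `E` is, modulo a central subgroup, a group `SU(J)` or `Sp(J)` over a non-archimedean local field
`k`, where `J` is the sum of `q` hyperbolic planes and an anisotropic form `J₀`; `q ≥ 2`, and `q ≥ 3`
if `k` is of characteristic two. -/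
def TypeU (E : Type) [Group E] [TopologicalSpace E] : Prop :=
  ∃ (k : Type) (_ : NontriviallyNormedField k) (σ : k →+* k) (ε : k) (ι : Type) (_ : Fintype ι)
    (_ : DecidableEq ι) (J₀ : Matrix ι ι k) (q : ℕ)
    (S : Subgroup (SpecialLinearGroup ((Fin q ⊕ Fin q) ⊕ ι) k)),
    ProperSpace k ∧ IsUltrametricDist k ∧ Continuous σ ∧ (∀ x, σ (σ x) = x) ∧ ε * ε = 1 ∧
    σ ε = ε ∧ IsAn σ ε J₀ ∧ 2 ≤ q ∧ (∀ g, g ∈ S ↔ IsIsom σ ε J₀ q g.1) ∧
    ((∃ c, σ c ≠ c) ∨ ε = -1 ∧ IsEmpty ι) ∧ ((2 : k) ≠ 0 ∨ 3 ≤ q) ∧ QuoS S E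

/-- `Γ` is an ICC lattice in a group of the class `TypeU`. -/
def LatticeU (Γ : Type) [Group Γ] : Prop :=
  ICC Γ ∧ ∃ (E : Type) (_ : Group E) (_ : TopologicalSpace E) (i : Γ →* E),
    TypeU E ∧ Function.Injective i ∧ IsLattice i.range

end Vale.Agent.P092.UN
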