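import Vale.Agent.P092.UN.StS
import Vale.Agent.P092.UN.Eqv
import Vale.Agent.P092.H387.FinS

/-!
P092 (helper350): the groups `SL_n(k)/Z` of `UN.TypeA` have a proper central quotient `PSL_n(k)`;
the lattices of `UN.LatticeS` and `UN.LatticeA` are lattices of (products of) groups `PSL_n(k)`.
-/

set_option linter.all false

open Matrix Filter Topology

namespace Vale.Agent.P092.UN

open Vale.Agent.P092.H387.Ad (PS NF inj_comp_icc lat_comp lat_normal finite_center_sl t2_ps lc_ps
  sc_ps)

theorem nf_typeA {E : Type} [Group E] [TopologicalSpace E] (h : TypeA E) : NF E := by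
  obtain ⟨k, _, n, hp, hk, hn, f, hf, hz⟩ := h
  have ho : IsOpenQuotientMap f := MonoidHom.isOpenQuotientMap_of_isQuotientMap hf
  have htg : IsTopologicalGroup E :=
    { continuous_mul := by
        refine (ho.prodMap ho).isQuotientMap.continuous_iff.2 ?_
        have : (fun p : E × E => p.1 * p.2) ∘ Prod.map f f =
            f ∘ fun p : SpecialLinearGroup (Fin n) k × SpecialLinearGroup (Fin n) k =>
              p.1 * p.2 := by
          funext p
          exact (map_mul f p.1 p.2).symm
        rw [this]
        exact hf.continuous.comp continuous_mul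
      continuous_inv := by
        refine hf.continuous_iff.2 ?_
        have : (fun x : E => x⁻¹) ∘ f = f ∘ fun x => x⁻¹ := by
          funext x
          exact (map_inv f x).symm
        rw [this]
        exact hf.continuous.comp continuous_inv }
  let φ : SpecialLinearGroup (Fin n) k ⧸ f.ker ≃* E :=
    QuotientGroup.quotientKerEquivOfSurjective f hf.surjective
  have hφ : ∀ x, φ (QuotientGroup.mk' f.ker x) = f x := fun x => rfl
  have hφs : ∀ x, φ.symm (f x) = QuotientGroup.mk' f.ker x := fun x => by
    rw [MulEquiv.symm_apply_eq, hφ]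
  have hcs : Continuous φ.symm := by
    refine hf.continuous_iff.2 ?_
    have h2 : Continuous fun x : SpecialLinearGroup (Fin n) k => QuotientGroup.mk' f.ker x :=
      continuous_quotient_mk'
    exact h2.congr fun x => (hφs x).symm
  have hfin : (f.ker : Set (SpecialLinearGroup (Fin n) k)).Finite :=
    (finite_center_sl n k).subset hz
  haveI : IsClosed (f.ker : Set (SpecialLinearGroup (Fin n) k)) := hfin.isClosed
  haveI : T2Space (SpecialLinearGroup (Fin n) k ⧸ f.ker) := inferInstance
  have ht2 : T2Space E := T2Space.of_injective_continuous φ.symm.injective hcs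
  let p : E →* PS n k := (QuotientGroup.map f.ker
    (Subgroup.center (SpecialLinearGroup (Fin n) k)) (MonoidHom.id _) hz).comp
      φ.symm.toMonoidHom
  have hpf : ∀ x, p (f x) = QuotientGroup.mk' _ x := fun x => by
    change (QuotientGroup.map f.ker (Subgroup.center (SpecialLinearGroup (Fin n) k))
      (MonoidHom.id _) hz) (φ.symm (f x)) = _
    rw [hφs]
    rfl
  have hpc : Continuous p := by
    refine hf.continuous_iff.2 ?_
    have h2 : Continuous fun x : SpecialLinearGroup (Fin n) k =>
        QuotientGroup.mk' (Subgroup.center (SpecialLinearGroup (Fin n) k)) x :=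
      continuous_quotient_mk'
    exact h2.congr fun x => (hpf x).symm
  refine ⟨htg, ht2, n, k, inferInstance, hp, p, (locK_iff k).1 hk, hn, hpc, ?_, ?_, ?_⟩
  · intro y
    obtain ⟨x, rfl⟩ := QuotientGroup.mk'_surjective _ y
    exact ⟨f x, hpf x⟩
  · intro C hC
    have h1 := (H793.proper_mk (G := SpecialLinearGroup (Fin n) k)
      (Subgroup.center (SpecialLinearGroup (Fin n) k))
      (finite_center_sl n k).isCompact C hC).image hf.continuous
    have h2 : p ⁻¹' C = f '' ((QuotientGroup.mk : SpecialLinearGroup (Fin n) k → PS n k) ⁻¹' C) := by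
      ext y
      constructor
      · intro hy
        obtain ⟨x, rfl⟩ := hf.surjective y
        refine ⟨x, ?_, rfl⟩
        have := hpf x
        change p (f x) ∈ C at hy
        rw [this] at hy
        exact hy
      · rintro ⟨x, hx, rfl⟩
        change p (f x) ∈ C
        rw [hpf]
        exact hx
    rw [h2]
    exact h1
  · intro e he x
    obtain ⟨y, rfl⟩ := hf.surjective e
    obtain ⟨z, rfl⟩ := hf.surjective x
    rw [hpf] at he
    have h3 : y ∈ Subgroup.center (SpecialLinearGroup (Fin n) k) :=
      (QuotientGroup.eq_one_iff y).1 he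
    rw [← map_mul, ← map_mul, Subgroup.mem_center_iff.1 h3 z]

/-- **one factor** -/
theorem super_latticeS (h : ∀ (k : Type) [NontriviallyNormedField k] [ProperSpace k],
    H515.St.LocK k → ∀ n, 3 ≤ n → SN.CoreE (PS n k)) :
    ∀ (Γ : Type) [Group Γ], LatticeS Γ → Super Γ := by
  rintro Γ _ ⟨hicc, E, _, _, i, ht, hi, hl⟩
  obtain ⟨_, _, n, k, _, _, p, hk, hn, hc, hs, hpr, hzz⟩ := nf_typeA ht
  refine super_of ?_
  have hl' := (isLattice_iff _).1 hl
  exact SN.super_of_coreE (h k hk n hn) hicc (p.comp i)
    (inj_comp_icc hicc hi p hzz) (lat_comp hl' p hc hs hpr)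

/-- **products** -/
theorem super_latticeA (h : ∀ (I : Type) [Fintype I] (n : I → ℕ) (k : I → Type)
    [∀ j, NontriviallyNormedField (k j)] [∀ j, ProperSpace (k j)], (∀ j, H515.St.LocK (k j)) →
    (∀ j, 3 ≤ n j) → SN.CoreE (∀ j, PS (n j) (k j))) :
    ∀ (Γ : Type) [Group Γ], LatticeA Γ → Super Γ := by
  rintro Γ _ ⟨hicc, I, _, E, _, _, i, ht, hi, hl⟩
  refine super_of ?_
  have hl' := (isLattice_iff _).1 hl
  obtain ⟨n, k, hk, hP, i', hL, hn, hi', hl''⟩ :=
    lat_normal (fun j => nf_typeA (ht j)) hicc i hi hl'
  exact SN.super_of_coreE (h I n k hL hn) hicc i' hi' hl''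

end Vale.Agent.P092.UN
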