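import Vale.Agent.P092.UN.Cls
import Mathlib.LinearAlgebra.Matrix.PosDef

/-!
P092 (helper793, helper259): noncompact connected simple real linear groups. Only definitions.
-/

open Matrix

namespace Vale.Agent.P092.UN

/-- `S` is a closed, connected, noncompact and nonabelian subgroup of `SL_n(ℝ)`, all of whose normal
subgroups are central or everything, and it is self-adjoint: stable under transposition and under square
roots of positive definite elements. (By theorems of Cartan and Mostow every closed connected subgroup
of `SL_n(ℝ)` with the first properties is self-adjoint in a suitable basis of `ℝ^n`.) -/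
def IsRS {n : ℕ} (S : Subgroup (SpecialLinearGroup (Fin n) ℝ)) : Prop :=
  IsClosed (S : Set (SpecialLinearGroup (Fin n) ℝ)) ∧
    IsPreconnected (S : Set (SpecialLinearGroup (Fin n) ℝ)) ∧
    ¬ IsCompact (S : Set (SpecialLinearGroup (Fin n) ℝ)) ∧
    (∃ g ∈ S, ∃ h ∈ S, g * h ≠ h * g) ∧
    (∀ N : Subgroup S, N.Normal → N ≤ Subgroup.center S ∨ N = ⊤) ∧
    (∀ g ∈ S, g.transpose ∈ S) ∧ ∀ h, h.1.PosDef → h * h ∈ S → h ∈ S

/-- `G` is a noncompact connected simple real linear group, modulo a central subgroup. -/
def IsReal (G : Type) [Group G] [TopologicalSpace G] : Prop :=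
  ∃ (n : ℕ) (S : Subgroup (SpecialLinearGroup (Fin n) ℝ)), IsRS S ∧ QuoS S G

end Vale.Agent.P092.UN
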