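import Vale.Agent.P092.UN.St

/-!
P092 (helper701): lattices in `SL_3(k)`. Only a definition.
-/

namespace Vale.Agent.P092.UN

/-- `Γ` is an ICC lattice in `SL_3(k)`: it is ICC and has an injective homomorphism to `SL_3(k)`
whose image is a lattice. -/
def Lattice3 (k : Type) [NontriviallyNormedField k] (Γ : Type) [Group Γ] : Prop :=
  ICC Γ ∧ ∃ i : Γ →* Matrix.SpecialLinearGroup (Fin 3) k,
    Function.Injective i ∧ IsLattice i.range

end Vale.Agent.P092.UN
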