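import Vale.Agent.P092.UN.StC
import Vale.Agent.P092.UN.Eqv
import Vale.Agent.P092.H684.Psp4

/-!
P092 (helper805; the proof of `nf_typeA` of helper350): the groups `Sp_4(k)/Z` have a proper central
quotient `PSp_4(k)`; the lattices of `UN.LatticeC`.
-/

set_option linter.all false

open Matrix Filter Topology

namespace Vale.Agent.P092.UN

open Vale.Agent.P092.SP4 (S4 J4 mem_S4)
open Vale.Agent.P092.H684.Psp (PSp4 NC scc Sc super_nc)
open Vale.Agent.P092.SN (CoreE)

/-! ### `Matrix.symplecticGroup (Fin 2) k` is `S4 k` -/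

/-- the order of the coordinates of Team P -/
def e4 : Fin 4 ≃ Fin 2 ⊕ Fin 2 where
  toFun := ![Sum.inr 0, Sum.inr 1, Sum.inl 1, Sum.inl 0]
  invFun := Sum.elim ![3, 2] ![0, 1]
  left_inv i := by fin_cases i <;> rfl
  right_inv i := by rcases i with i | i <;> fin_cases i <;> rfl

theorem J_e4 (k : Type) [Field k] : (J (Fin 2) k).submatrix e4 e4 = J4 k := by
  ext i j
  fin_cases i <;> fin_cases j <;> simp [e4, J, J4]

/-- `symplecticGroup (Fin 2) k` in the letters of Team P -/
noncomputable def tr4 (k : Type) [NontriviallyNormedField k] :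
    symplecticGroup (Fin 2) k ≃* S4 k where
  toFun A := ⟨⟨A.1.submatrix e4 e4, by
      rw [Matrix.det_submatrix_equiv_self]; exact SymplecticGroup.det_eq_one A.2⟩, by
    refine mem_S4.2 ?_
    rw [← J_e4]
    have h := SymplecticGroup.mem_iff.1 A.2
    show A.1.submatrix e4 e4 * _ * (A.1.submatrix e4 e4)ᵀ = _
    rw [Matrix.transpose_submatrix, Matrix.submatrix_mul_equiv, Matrix.submatrix_mul_equiv, h]⟩
  invFun g := ⟨g.1.1.submatrix e4.symm e4.symm, by
    rw [SymplecticGroup.mem_iff]
    have h1 := mem_S4.1 g.2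
    have h2 : J (Fin 2) k = (J4 k).submatrix e4.symm e4.symm := by
      rw [← J_e4, Matrix.submatrix_submatrix]; simp
    rw [h2, Matrix.transpose_submatrix, Matrix.submatrix_mul_equiv, Matrix.submatrix_mul_equiv, h1]⟩
  left_inv A := by
    apply Subtype.ext
    show (A.1.submatrix e4 e4).submatrix e4.symm e4.symm = A.1
    rw [Matrix.submatrix_submatrix]; simp
  right_inv g := by
    apply Subtype.ext
    apply Subtype.ext
    show (g.1.1.submatrix e4.symm e4.symm).submatrix e4 e4 = g.1.1
    rw [Matrix.submatrix_submatrix]; simp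
  map_mul' A B := by
    apply Subtype.ext
    apply Subtype.ext
    exact (Matrix.submatrix_mul_equiv A.1 B.1 _ _ _).symm

section

variable {k : Type} [NontriviallyNormedField k]

theorem cont_tr4 : Continuous (tr4 k) := by
  refine continuous_induced_rng.2 (continuous_induced_rng.2 ?_)
  exact Continuous.matrix_submatrix continuous_subtype_val _ _

theorem cont_tr4_symm : Continuous (tr4 k).symm := by
  refine continuous_induced_rng.2 ?_
  have h : Continuous fun g : S4 k => g.1.1 := continuous_subtype_val.comp continuous_subtype_val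
  exact h.matrix_submatrix _ _

theorem quo_S4 {E : Type} [Group E] [TopologicalSpace E]
    (h : Quo (symplecticGroup (Fin 2) k) E) : Quo (S4 k) E := by
  obtain ⟨f, hf, hz⟩ := h
  refine ⟨f.comp (tr4 k).symm.toMonoidHom, ?_, ?_⟩
  · have h1 : IsQuotientMap (tr4 k).symm :=
      (⟨(tr4 k).symm.toEquiv, cont_tr4_symm, cont_tr4⟩ : S4 k ≃ₜ symplecticGroup (Fin 2) k).isQuotientMap
    exact hf.comp h1
  · intro x hx
    have h1 : (tr4 k).symm x ∈ f.ker := hx
    have h2 := Subgroup.mem_center_iff.1 (hz h1)
    refine Subgroup.mem_center_iff.2 fun y => ?_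
    have h3 := h2 ((tr4 k).symm y)
    rw [← map_mul, ← map_mul] at h3
    exact (tr4 k).symm.injective h3

end

theorem nc_quo4 {k E : Type} [NontriviallyNormedField k] [Group E] [TopologicalSpace E]
    (h : Quo (S4 k) E) : NC E (PSp4 k) := by
  obtain ⟨f, hf, hz⟩ := h
  have hfc : (Subgroup.center (S4 k) : Set (S4 k)).Finite := (scc k).finite (by norm_num)
  have ho : IsOpenQuotientMap f := MonoidHom.isOpenQuotientMap_of_isQuotientMap hf
  have htg : IsTopologicalGroup E :=
    { continuous_mul := by
        refine (ho.prodMap ho).isQuotientMap.continuous_iff.2 ?_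
        have : (fun p : E × E => p.1 * p.2) ∘ Prod.map f f =
            f ∘ fun p : S4 k × S4 k => p.1 * p.2 := by
          funext p
          exact (map_mul f p.1 p.2).symm
        rw [this]
        exact hf.continuous.comp continuous_mul
      continuous_inv := by
        refine hf.continuous_iff.2 ?_
        have : (fun x : E => x⁻¹) ∘ f = f ∘ fun x => x⁻¹ := by
          funext x
          exact (map_inv f x).symm
        rw [this]
        exact hf.continuous.comp continuous_inv }
  let φ : S4 k ⧸ f.ker ≃* E := QuotientGroup.quotientKerEquivOfSurjective f hf.surjective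
  have hφ : ∀ x, φ (QuotientGroup.mk' f.ker x) = f x := fun x => rfl
  have hφs : ∀ x, φ.symm (f x) = QuotientGroup.mk' f.ker x := fun x => by
    rw [MulEquiv.symm_apply_eq, hφ]
  have hcs : Continuous φ.symm := by
    refine hf.continuous_iff.2 ?_
    have h2 : Continuous fun x : S4 k => QuotientGroup.mk' f.ker x := continuous_quotient_mk'
    exact h2.congr fun x => (hφs x).symm
  have hfin : (f.ker : Set (S4 k)).Finite := hfc.subset hz
  haveI : IsClosed (f.ker : Set (S4 k)) := hfin.isClosed
  haveI : T2Space (S4 k ⧸ f.ker) := inferInstance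
  have ht2 : T2Space E := T2Space.of_injective_continuous φ.symm.injective hcs
  let p : E →* PSp4 k := (QuotientGroup.map f.ker
    (Subgroup.center (S4 k)) (MonoidHom.id _) hz).comp φ.symm.toMonoidHom
  have hpf : ∀ x, p (f x) = QuotientGroup.mk' _ x := fun x => by
    change (QuotientGroup.map f.ker (Subgroup.center (S4 k)) (MonoidHom.id _) hz)
      (φ.symm (f x)) = _
    rw [hφs]
    rfl
  have hpc : Continuous p := by
    refine hf.continuous_iff.2 ?_
    have h2 : Continuous fun x : S4 k => QuotientGroup.mk' (Subgroup.center (S4 k)) x :=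
      continuous_quotient_mk'
    exact h2.congr fun x => (hpf x).symm
  refine ⟨htg, ht2, p, hpc, ?_, ?_, ?_⟩
  · intro y
    obtain ⟨x, rfl⟩ := QuotientGroup.mk'_surjective _ y
    exact ⟨f x, hpf x⟩
  · intro C hC
    have h1 := (H793.proper_mk (G := S4 k) (Subgroup.center (S4 k)) hfc.isCompact C hC).image
      hf.continuous
    have h2 : p ⁻¹' C = f '' ((QuotientGroup.mk : S4 k → PSp4 k) ⁻¹' C) := by
      ext y
      constructor
      · intro hy
        obtain ⟨x, rfl⟩ := hf.surjective y
        refine ⟨x, ?_, rfl⟩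
        have := hpf x
        change p (f x) ∈ C at hy
        rw [this] at hy
        exact hy
      · rintro ⟨x, hx, rfl⟩
        change p (f x) ∈ C
        rw [hpf]
        exact hx
    rw [h2]
    exact h1
  · intro e he x
    obtain ⟨y, rfl⟩ := hf.surjective e
    obtain ⟨z, rfl⟩ := hf.surjective x
    rw [hpf] at he
    have h3 : y ∈ Subgroup.center (S4 k) := (QuotientGroup.eq_one_iff y).1 he
    rw [← map_mul, ← map_mul, Subgroup.mem_center_iff.1 h3 z]

/-- **lattices of `Sp_4(k)/Z`** -/
theorem super_quo4 {k : Type} [NontriviallyNormedField k] [ProperSpace k] (h : CoreE (PSp4 k))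
    {E : Type} [Group E] [TopologicalSpace E] (hE : Quo (symplecticGroup (Fin 2) k) E)
    {Γ : Type} [Group Γ] (hicc : ICC Γ) (i : Γ →* E) (hi : Function.Injective i)
    (hl : IsLattice i.range) : Super Γ :=
  super_of (super_nc (nc_quo4 (quo_S4 hE)) h hicc i hi ((isLattice_iff _).1 hl))

/-- **the class `LatticeC`** -/
theorem super_latticeC (hR : CoreE (PSp4 ℝ)) (h : ∀ (k : Type) [NontriviallyNormedField k]
    [ProperSpace k] [IsUltrametricDist k], (2 : k) ≠ 0 → CoreE (PSp4 k)) :
    ∀ (Γ : Type) [Group Γ], LatticeC Γ → Super Γ := by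
  rintro Γ _ ⟨hicc, E, _, _, i, ht | ⟨k, _, _, _, h2, ht⟩, hi, hl⟩
  · exact super_quo4 hR ht hicc i hi hl
  · exact super_quo4 (h k h2) ht hicc i hi hl

end Vale.Agent.P092.UN
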