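import Vale.Agent.P092.UN.StC3

/-!
P092 (helper421; the shape is helper678's): groups having a subgroup of finite index which is a
lattice in `Sp_4(k)/Z`, `k` any local field of characteristic different from two. Only definitions.
-/

namespace Vale.Agent.P092.UN

/-- `Γ` is an ICC group having a subgroup of finite index which is isomorphic to a lattice in a
group of the class `TypeC3`. -/
def VLatticeC3 (Γ : Type) [Group Γ] : Prop :=
  ICC Γ ∧ ∃ Γ₀ : Subgroup Γ, Γ₀.FiniteIndex ∧
    ∃ (E : Type) (_ : Group E) (_ : TopologicalSpace E) (i : Γ₀ →* E),
      TypeC3 E ∧ Function.Injective i ∧ IsLattice i.range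

end Vale.Agent.P092.UN
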