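import Vale.Agent.P092.UN.StP
import Vale.Agent.P092.UN.StQ

/-!
P092 (helper133): the class `LatticeQ` is contained in `LatticeP`.
-/

open Matrix

namespace Vale.Agent.P092.UN

/-- A quotient map with kernel the centre identifies its target with the quotient by the centre. -/
theorem isPGL_iso {G : Type} [Group G] [TopologicalSpace G] {T : Set G} (h : IsPGL G T) :
    ∃ (k : Type) (_ : NontriviallyNormedField k) (n : ℕ)
      (e : G →* GL (Fin n) k ⧸ Subgroup.center (GL (Fin n) k)),
      ProperSpace k ∧ LocK k ∧ 3 ≤ n ∧ IsHomeomorph e ∧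
      ∀ g : GL (Fin n) k, g.1.det = 1 → ∃ x ∈ T, e x = QuotientGroup.mk g := by
  obtain ⟨k, k1, n, q, h1, h2, h3, h4, h5, h6⟩ := h
  let e0 : GL (Fin n) k ⧸ Subgroup.center (GL (Fin n) k) ≃* G :=
    (QuotientGroup.quotientMulEquivOfEq h5.symm).trans
      (QuotientGroup.quotientKerEquivOfSurjective q h4.surjective)
  have he0 : ∀ g : GL (Fin n) k, e0 (QuotientGroup.mk g) = q g := fun g => rfl
  have hm : ∀ g : GL (Fin n) k, e0.symm (q g) = QuotientGroup.mk g := fun g => by
    rw [← he0, MulEquiv.symm_apply_apply]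
  have c1 : Continuous e0.symm := by
    rw [h4.continuous_iff]
    have : (e0.symm : G → _) ∘ q =
        (QuotientGroup.mk : GL (Fin n) k → GL (Fin n) k ⧸ Subgroup.center (GL (Fin n) k)) :=
      funext hm
    rw [this]
    exact continuous_quot_mk
  have c2 : Continuous e0 := by
    have hq : Topology.IsQuotientMap
        (QuotientGroup.mk : GL (Fin n) k → GL (Fin n) k ⧸ Subgroup.center (GL (Fin n) k)) :=
      isQuotientMap_quot_mk
    rw [hq.continuous_iff]
    exact h4.continuous
  refine ⟨k, k1, n, e0.symm.toMonoidHom, h1, h2, h3, ?_, ?_⟩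
  · exact (Homeomorph.isHomeomorph
      { toEquiv := e0.symm.toEquiv, continuous_toFun := c1, continuous_invFun := c2 })
  · intro g hg
    refine ⟨q g, ?_, hm g⟩
    rw [h6]
    exact ⟨g, hg, rfl⟩

theorem latticeP_of_latticeQ {Γ : Type} [Group Γ] (h : LatticeQ Γ) : LatticeP Γ := by
  classical
  obtain ⟨hi, J, j1, j2, G, g1, g2, T, E, e1, e2, f, i, h1, h2, h3, h4, h5, h6⟩ := h
  choose k k1 n e a1 a2 a3 a4 a5 using fun j => isPGL_iso (h3 j)
  let F : (∀ j, G j) →* ∀ j, GL (Fin (n j)) (k j) ⧸ Subgroup.center (GL (Fin (n j)) (k j)) :=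
    { toFun := fun x j => e j (x j)
      map_one' := funext fun j => map_one (e j)
      map_mul' := fun x y => funext fun j => map_mul (e j) (x j) (y j) }
  have hF : IsHomeomorph F := by
    have : (F : (∀ j, G j) → _) = Pi.map fun j => (e j : G j → _) := rfl
    rw [this]
    exact ((Homeomorph.piCongrRight fun j => (a4 j).homeomorph).isHomeomorph)
  refine ⟨hi, J, j1, j2, k, k1, n, E, e1, e2, F.comp f, i, h1, fun j => ⟨a1 j, a2 j, a3 j⟩, ?_, ?_,
    h5, h6⟩
  · exact hF.isProperMap.comp h2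
  · intro j g hg
    obtain ⟨x, hx, hx2⟩ := a5 j g hg
    obtain ⟨y, hy⟩ := h4 j x hx
    refine ⟨y, ?_⟩
    funext l
    change e l (f y l) = _
    rw [hy]
    by_cases hl : l = j
    · subst hl
      rw [Pi.mulSingle_eq_same, Pi.mulSingle_eq_same, hx2]
    · rw [Pi.mulSingle_eq_of_ne hl, Pi.mulSingle_eq_of_ne hl, map_one]

end Vale.Agent.P092.UN
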