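import Vale.Agent.P092.UN.ClsR

/-!
P092 (helper465): lattices in products of groups which contain a classical group over a local field or a
simple real linear group as an open normal subgroup of finite index. Only definitions.
-/

namespace Vale.Agent.P092.UN

/-- `G` is a topological group with an open normal subgroup of finite index which is a classical group
over a local field or a simple real linear group, modulo a central subgroup. -/
def ClsA (G : Type) [Group G] [TopologicalSpace G] : Prop :=
  IsTopologicalGroup G ∧ ∃ N : Subgroup G, N.Normal ∧ N.FiniteIndex ∧ IsOpen (N : Set G) ∧
    (Cls N ∨ IsReal N)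

/-- `Γ` is an ICC lattice in a finite product of groups of the class `ClsA`, whose projection to every
factor is dense. -/
def ClassLatticeA (Γ : Type) [Group Γ] : Prop :=
  ICC Γ ∧ ∃ (I : Type) (_ : Fintype I) (G : I → Type) (_ : ∀ j, Group (G j))
    (_ : ∀ j, TopologicalSpace (G j)) (i : Γ →* ∀ j, G j), (∀ j, ClsA (G j)) ∧ DenseLattice i

end Vale.Agent.P092.UN
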