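import Vale.Agent.P092.UN.ClsE
import Vale.Agent.P092.H714.AllF

/-!
P092 (helper465): the final theorem for products of classical groups in compact letters.
-/

set_option linter.all false

namespace Vale.Agent.P092.UN

/-- **ICC lattices in products of classical groups over local fields, with dense projections, satisfy
the conclusion of Q1**. -/
theorem superAll_class (Γ : Type) [Group Γ] (h : ClassLattice Γ) : SuperAll Γ :=
  superAll_of (H714.ClF.superAll_classF Γ ((classLattice_iff Γ).1 h))

end Vale.Agent.P092.UN
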