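import Vale.Agent.P092.UN.ClsA
import Vale.Agent.P092.UN.ClsE
import Vale.Agent.P092.VR.All
import Vale.Agent.P092.H259.Re.Cls

/-!
P092 (helper465): the final theorem for products of overgroups of classical groups over local fields and
of simple real linear groups, in compact letters.
-/

set_option linter.all false

namespace Vale.Agent.P092.UN

/-- Every group of the class `ClsA` is an overgroup of finite index of a factor. -/
theorem clsA_ov {G : Type} [Group G] [TopologicalSpace G] (h : ClsA G) :
    ∃ (N : Subgroup G) (r : ℕ), VR.Ov N.subtype r := by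
  obtain ⟨ht, N, hn, hf, ho, hc⟩ := h
  have h1 : ∃ r, QC.QF N r := hc.elim (fun h => cls_qf h) fun h => H259.Re.isReal_qf h
  obtain ⟨r, hr⟩ := h1
  exact ⟨N, r, VR.ov_subtype ht hn hf ho hr⟩

/-- The class `ClsA` contains the class `ClsV`. -/
theorem ClsV.clsA {G : Type} [Group G] [TopologicalSpace G] (h : ClsV G) : ClsA G := by
  obtain ⟨ht, N, hn, hf, ho, hc⟩ := h
  exact ⟨ht, N, hn, hf, ho, Or.inl hc⟩

theorem ClassLatticeV.classLatticeA {Γ : Type} [Group Γ] (h : ClassLatticeV Γ) :
    ClassLatticeA Γ := by
  obtain ⟨hicc, I, hI, G, hg, ht, i, hG, hi⟩ := h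
  exact ⟨hicc, I, hI, G, hg, ht, i, fun j => (hG j).clsA, hi⟩

/-- **ICC lattices in products of overgroups of finite index of classical groups over local fields and
of simple real linear groups, with dense projections, satisfy the conclusion of Q1**. -/
theorem superAll_classA (Γ : Type) [Group Γ] (h : ClassLatticeA Γ) : SuperAll Γ := by
  obtain ⟨hicc, I, _, E, _, _, i, hE, hi⟩ := h
  choose N r hr using fun j => clsA_ov (hE j)
  have h1 := (denseLattice_iff i).1 hi
  exact superAll_of (VR.superAll_ovh hr i h1.inj h1.lat h1.dense ((icc_iff Γ).1 hicc))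

end Vale.Agent.P092.UN
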