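import Vale.Agent.P092.UN.ClsE
import Vale.Agent.P092.VR.All

/-!
P092 (helper465): the final theorem for products of overgroups of classical groups in compact letters.
-/

set_option linter.all false

namespace Vale.Agent.P092.UN

/-- **ICC lattices in products of overgroups of finite index of classical groups over local fields,
with dense projections, satisfy the conclusion of Q1**. -/
theorem superAll_classV (Γ : Type) [Group Γ] (h : ClassLatticeV Γ) : SuperAll Γ :=
  superAll_of (VR.superAll_classV Γ (classLatticeV_vr h))

end Vale.Agent.P092.UN
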