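import Vale.Agent.P092.UN.NfW
import Vale.Agent.P092.CLT.FinUV
import Vale.Agent.P092.CLT.FinU2
import Vale.Agent.P092.CLT.FinO3
import Vale.Agent.P092.CLT.FinR
import Vale.Agent.P092.H678.O.ClsC

/-!
P092 (helper85): the class `LatticeW` has the interface `HasOver`; the only hypothesis is the class
`LatticeUC` (TRACK H).
-/

set_option linter.all false

namespace Vale.Agent.P092.UN

open Vale.Agent.P092.H678.OV (HasOver superAll_virt superAll_hasOver hasOver_latticeC3)

theorem hasOver_latticeW_of (hH : ∀ (Γ : Type) [Group Γ], LatticeUC Γ → HasOver Γ) :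
    ∀ (Γ : Type) [Group Γ], LatticeW Γ → HasOver Γ :=
  latticeW_of (C := fun Γ _ => HasOver Γ) hasOver_latticeU hasOver_latticeU2 hasOver_latticeO
    hasOver_latticeOR hH hasOver_latticeC3

theorem latticeW_superAll_of (hH : ∀ (Γ : Type) [Group Γ], LatticeUC Γ → SuperAll Γ) :
    ∀ (Γ : Type) [Group Γ], LatticeW Γ → SuperAll Γ :=
  latticeW_of (C := fun Γ _ => SuperAll Γ)
    (fun Γ _ h => superAll_hasOver h.1 (hasOver_latticeU Γ h))
    (fun Γ _ h => superAll_hasOver h.1 (hasOver_latticeU2 Γ h))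
    (fun Γ _ h => superAll_hasOver h.1 (hasOver_latticeO Γ h))
    (fun Γ _ h => superAll_hasOver h.1 (hasOver_latticeOR Γ h)) hH
    (fun Γ _ h => superAll_hasOver h.1 (hasOver_latticeC3 Γ h))

theorem superAll_virtW_of (hH : ∀ (Γ : Type) [Group Γ], LatticeUC Γ → HasOver Γ) {Γ : Type}
    [Group Γ] (hicc : ICC Γ) {Γ₀ : Subgroup Γ} (hfi : Γ₀.FiniteIndex) (h : LatticeW Γ₀) :
    SuperAll Γ :=
  superAll_virt hicc hfi (hasOver_latticeW_of hH Γ₀ h)

end Vale.Agent.P092.UN
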