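import Vale.Agent.P092.UN.Cls

/-!
P092 (helper387): lattices in the groups `[SO(J), SO(J)]`, of Witt index at least two and not split of
even dimension, over non-archimedean local fields, modulo central subgroups. Only definitions.
-/

open Matrix
open scoped commutatorElement

namespace Vale.Agent.P092.UN

/-- `E` is, modulo a central subgroup, a group `Ω(J) = [SO(J), SO(J)]` over a non-archimedean local
field `k` of characteristic not two, where `J` is the sum of `q ≥ 2` hyperbolic planes and an
anisotropic symmetric form `J₀` of dimension at least one. -/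
def TypeO (E : Type) [Group E] [TopologicalSpace E] : Prop :=
  ∃ (k : Type) (_ : NontriviallyNormedField k) (ι : Type) (_ : Fintype ι) (_ : DecidableEq ι)
    (J₀ : Matrix ι ι k) (q : ℕ) (S : Subgroup (SpecialLinearGroup ((Fin q ⊕ Fin q) ⊕ ι) k)),
    ProperSpace k ∧ IsUltrametricDist k ∧ (2 : k) ≠ 0 ∧ IsAn id 1 J₀ ∧ 2 ≤ q ∧ Nonempty ι ∧
    (∀ g, g ∈ S ↔ IsIsom id 1 J₀ q g.1) ∧
    QuoS (E := SpecialLinearGroup ((Fin q ⊕ Fin q) ⊕ ι) k) ⁅S, S⁆ E

/-- `Γ` is an ICC lattice in a group of the class `TypeO`. -/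
def LatticeO (Γ : Type) [Group Γ] : Prop :=
  ICC Γ ∧ ∃ (E : Type) (_ : Group E) (_ : TopologicalSpace E) (i : Γ →* E),
    TypeO E ∧ Function.Injective i ∧ IsLattice i.range

end Vale.Agent.P092.UN
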