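import Vale.Agent.P092.UN.Cls

/-!
P092 (helper142, helper387, helper874): lattices in the real orthogonal groups of Witt index two, modulo
central subgroups. Only definitions.
-/

open Matrix
open scoped commutatorElement

namespace Vale.Agent.P092.UN

/-- `E` is, modulo a central subgroup, a group `Ω(J) = [SO(J), SO(J)]` over `ℝ`, where `J` is the sum of
two hyperbolic planes and an anisotropic (= definite) symmetric form `J₀` of dimension at least one:
the identity component of `SO(2, n)`, `n ≥ 3`. -/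
def TypeOR (E : Type) [Group E] [TopologicalSpace E] : Prop :=
  ∃ (ι : Type) (_ : Fintype ι) (_ : DecidableEq ι) (J₀ : Matrix ι ι ℝ)
    (S : Subgroup (SpecialLinearGroup ((Fin 2 ⊕ Fin 2) ⊕ ι) ℝ)),
    IsAn id 1 J₀ ∧ Nonempty ι ∧ (∀ g, g ∈ S ↔ IsIsom id 1 J₀ 2 g.1) ∧
    QuoS (E := SpecialLinearGroup ((Fin 2 ⊕ Fin 2) ⊕ ι) ℝ) ⁅S, S⁆ E

/-- `Γ` is an ICC lattice in a group of the class `TypeOR`. -/
def LatticeOR (Γ : Type) [Group Γ] : Prop :=
  ICC Γ ∧ ∃ (E : Type) (_ : Group E) (_ : TopologicalSpace E) (i : Γ →* E),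
    TypeOR E ∧ Function.Injective i ∧ IsLattice i.range

end Vale.Agent.P092.UN
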