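import Vale.Agent.P092.UN.Cls

/-!
P092 (helper85): lattices in the groups `SU(J)`, `J` a Hermitian form over `ℂ` of Witt index two, modulo
central subgroups. Only definitions.
-/

open Matrix

namespace Vale.Agent.P092.UN

/-- `E` is, modulo a central subgroup, a group `SU(J)`, where `J` is the sum of two hyperbolic planes
and an anisotropic (that is, definite) Hermitian form `J₀` over `ℂ` (so `SU(J)` is `SU(2, n)`,
`n ≥ 2`). -/
def TypeUC (E : Type) [Group E] [TopologicalSpace E] : Prop :=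
  ∃ (ι : Type) (_ : Fintype ι) (_ : DecidableEq ι) (J₀ : Matrix ι ι ℂ)
    (S : Subgroup (SpecialLinearGroup ((Fin 2 ⊕ Fin 2) ⊕ ι) ℂ)),
    IsAn (starRingEnd ℂ) 1 J₀ ∧ (∀ g, g ∈ S ↔ IsIsom (starRingEnd ℂ) 1 J₀ 2 g.1) ∧ QuoS S E

/-- `Γ` is an ICC lattice in a group of the class `TypeUC`. -/
def LatticeUC (Γ : Type) [Group Γ] : Prop :=
  ICC Γ ∧ ∃ (E : Type) (_ : Group E) (_ : TopologicalSpace E) (i : Γ →* E),
    TypeUC E ∧ Function.Injective i ∧ IsLattice i.range

end Vale.Agent.P092.UN
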