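import Vale.Agent.P092.UN.StW
import Vale.Agent.P092.UN.StO
import Vale.Agent.P092.UN.StOR
import Vale.Agent.P092.UN.StU
import Vale.Agent.P092.UN.StUC
import Vale.Agent.P092.UN.StC3
import Mathlib.Analysis.Complex.Polynomial.Basic
import Mathlib.Topology.Algebra.IsUniformGroup.Constructions

/-!
P092 (helper85): the groups of the class `UN.TypeW` belong to the classes `TypeU`, `TypeU2`, `TypeO`,
`TypeOR`, `TypeUC`, `TypeC3`; so do their lattices (the coordinates of `Sp(J)` are those of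
helper759).
-/

set_option linter.all false

open Matrix Topology

namespace Vale.Agent.P092.UN

section sp

variable (n : ℕ) (k : Type) [NontriviallyNormedField k] (ι : Type) [Fintype ι] [DecidableEq ι]
  [IsEmpty ι]

/-- coordinates without the anisotropic part -/
def eI : (Fin n ⊕ Fin n) ⊕ ι ≃ Fin n ⊕ Fin n := Equiv.sumEmpty _ _

theorem form_eI (J₀ : Matrix ι ι k) :
    (fromBlocks (fromBlocks 0 1 ((-1 : k) • (1 : Matrix (Fin n) (Fin n) k)) 0) 0 0 J₀ :
      Matrix ((Fin n ⊕ Fin n) ⊕ ι) ((Fin n ⊕ Fin n) ⊕ ι) k) =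
    -(J (Fin n) k).submatrix (eI n ι) (eI n ι) := by
  ext i j
  rcases i with (i | i) | i
  · rcases j with (j | j) | j
    · simp [eI, J]
    · simp [eI, J]
    · exact isEmptyElim j
  · rcases j with (j | j) | j
    · simp [eI, J]
    · simp [eI, J]
    · exact isEmptyElim j
  · exact isEmptyElim i

theorem isom_iffI (J₀ : Matrix ι ι k) (g : Matrix ((Fin n ⊕ Fin n) ⊕ ι) ((Fin n ⊕ Fin n) ⊕ ι) k) :
    IsIsom (RingHom.id k) (-1 : k) J₀ n g ↔
      g.submatrix (eI n ι).symm (eI n ι).symm ∈ symplecticGroup (Fin n) k := by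
  unfold IsIsom
  rw [form_eI, SymplecticGroup.mem_iff]
  have h1 : g.map (RingHom.id k) = g := by ext i j; rfl
  rw [h1, Matrix.mul_neg, Matrix.neg_mul, neg_inj]
  obtain ⟨G, hG⟩ : ∃ G, G = g.submatrix (eI n ι).symm (eI n ι).symm := ⟨_, rfl⟩
  have hg : g = G.submatrix (eI n ι) (eI n ι) := by
    rw [hG, Matrix.submatrix_submatrix]; simp
  rw [← hG, hg, Matrix.transpose_submatrix, Matrix.submatrix_mul_equiv,
    Matrix.submatrix_mul_equiv]
  constructor
  · intro h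
    ext i j
    have h2 := congrFun (congrFun h ((eI n ι).symm i)) ((eI n ι).symm j)
    simpa using h2
  · intro h
    rw [h]

variable {n k ι}

/-- `symplecticGroup (Fin n) k` in the letters of the class -/
noncomputable def trS {S : Subgroup (SpecialLinearGroup ((Fin n ⊕ Fin n) ⊕ ι) k)}
    (hS : ∀ g, g ∈ S ↔ g.1.submatrix (eI n ι).symm (eI n ι).symm ∈ symplecticGroup (Fin n) k) :
    symplecticGroup (Fin n) k ≃* S where
  toFun A := ⟨⟨A.1.submatrix (eI n ι) (eI n ι), by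
      rw [Matrix.det_submatrix_equiv_self]; exact SymplecticGroup.det_eq_one A.2⟩, by
    refine (hS _).2 ?_
    show (A.1.submatrix (eI n ι) (eI n ι)).submatrix (eI n ι).symm (eI n ι).symm ∈
      symplecticGroup (Fin n) k
    rw [Matrix.submatrix_submatrix]
    simp⟩
  invFun g := ⟨g.1.1.submatrix (eI n ι).symm (eI n ι).symm, (hS g.1).1 g.2⟩
  left_inv A := by
    apply Subtype.ext
    show (A.1.submatrix (eI n ι) (eI n ι)).submatrix (eI n ι).symm (eI n ι).symm = A.1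
    rw [Matrix.submatrix_submatrix]; simp
  right_inv g := by
    apply Subtype.ext
    apply Subtype.ext
    show (g.1.1.submatrix (eI n ι).symm (eI n ι).symm).submatrix (eI n ι) (eI n ι) = g.1.1
    rw [Matrix.submatrix_submatrix]; simp
  map_mul' A B := by
    apply Subtype.ext
    apply Subtype.ext
    exact (Matrix.submatrix_mul_equiv A.1 B.1 _ _ _).symm

/-- quotients of `Sp(J)` are quotients of `Sp_{2n}(k)` -/
theorem quo_sp {S : Subgroup (SpecialLinearGroup ((Fin n ⊕ Fin n) ⊕ ι) k)} {J₀ : Matrix ι ι k}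
    (hS : ∀ g, g ∈ S ↔ IsIsom (RingHom.id k) (-1 : k) J₀ n g.1) {E : Type} [Group E]
    [TopologicalSpace E] (h : QuoS S E) : Quo (symplecticGroup (Fin n) k) E := by
  have hS' : ∀ g, g ∈ S ↔
      g.1.submatrix (eI n ι).symm (eI n ι).symm ∈ symplecticGroup (Fin n) k := fun g => by
    rw [hS, isom_iffI]
  obtain ⟨f, hf, hz⟩ := h
  have c1 : Continuous (trS hS') := by
    refine continuous_induced_rng.2 (continuous_induced_rng.2 ?_)
    exact Continuous.matrix_submatrix continuous_subtype_val _ _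
  have c2 : Continuous (trS hS').symm := by
    refine continuous_induced_rng.2 ?_
    have h : Continuous fun g : S => g.1.1 :=
      continuous_subtype_val.comp continuous_subtype_val
    exact h.matrix_submatrix _ _
  refine ⟨f.comp (trS hS').toMonoidHom, ?_, ?_⟩
  · have h1 : IsQuotientMap (trS hS') :=
      (⟨(trS hS').toEquiv, c1, c2⟩ : symplecticGroup (Fin n) k ≃ₜ S).isQuotientMap
    exact hf.comp h1
  · intro x hx
    have h1 : trS hS' x ∈ f.ker := hx
    have h2 := Subgroup.mem_center_iff.1 (hz h1)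
    refine Subgroup.mem_center_iff.2 fun y => ?_
    have h3 := h2 (trS hS' y)
    rw [← map_mul, ← map_mul] at h3
    exact (trS hS').injective h3

end sp

/-- the orthogonal clause in the letters of `TypeO`, `TypeOR` -/
theorem orth_id {k : Type} [Field k] {σ : k →+* k} (hσ : ∀ c, σ c = c) : (σ : k → k) = id :=
  funext hσ

/-- the unitary groups of Witt index two over non-archimedean local fields (used in characteristic
two) -/
def TypeU2 (E : Type) [Group E] [TopologicalSpace E] : Prop :=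
  ∃ (k : Type) (_ : NontriviallyNormedField k) (σ : k →+* k) (ι : Type) (_ : Fintype ι)
    (_ : DecidableEq ι) (J₀ : Matrix ι ι k)
    (S : Subgroup (SpecialLinearGroup ((Fin 2 ⊕ Fin 2) ⊕ ι) k)),
    ProperSpace k ∧ IsUltrametricDist k ∧ Continuous σ ∧ (∀ x, σ (σ x) = x) ∧ (∃ c, σ c ≠ c) ∧
    IsAn σ 1 J₀ ∧ (∀ g, g ∈ S ↔ IsIsom σ 1 J₀ 2 g.1) ∧ QuoS S E

/-- lattices of the class `TypeU2` -/
def LatticeU2 (Γ : Type) [Group Γ] : Prop :=
  ICC Γ ∧ ∃ (E : Type) (_ : Group E) (_ : TopologicalSpace E) (i : Γ →* E),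
    TypeU2 E ∧ Function.Injective i ∧ IsLattice i.range

/-- **The groups of `TypeW`.** -/
theorem typeW_cases {E : Type} [Group E] [TopologicalSpace E] (h : TypeW E) :
    TypeU E ∨ TypeU2 E ∨ TypeO E ∨ TypeOR E ∨ TypeUC E ∨ TypeC3 E := by
  rcases h with ⟨k, _, q, hp, hu, hq, h⟩ | h | h
  · obtain ⟨σ, ε, ι, _, _, J₀, S, hc, hσ, han, hS, ⟨hty, hQ⟩ | ⟨hσc, hε1, h2, hι, -, hQ⟩⟩ := h
    · rcases hty with ⟨hne, rfl⟩ | ⟨hσc, rfl, hι, h2⟩
      · by_cases h2 : (2 : k) ≠ 0 ∨ 3 ≤ q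
        · exact Or.inl ⟨k, _, σ, 1, ι, _, _, J₀, q, S, hp, hu, hc, hσ, one_mul 1, map_one σ, han,
            hq, hS, Or.inl hne, h2, hQ⟩
        · obtain rfl : q = 2 := by
            have h3 : ¬ 3 ≤ q := fun h => h2 (Or.inr h)
            omega
          exact Or.inr (Or.inl ⟨k, _, σ, ι, _, _, J₀, S, hp, hu, hc, hσ, hne, han, hS, hQ⟩)
      · exact Or.inl ⟨k, _, σ, -1, ι, _, _, J₀, q, S, hp, hu, hc, hσ, by ring, hσc _, han, hq, hS,
          Or.inr ⟨rfl, hι⟩, h2, hQ⟩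
    · subst hε1
      have e := orth_id hσc
      rw [e] at han
      refine Or.inr (Or.inr (Or.inl
        ⟨k, _, ι, _, _, J₀, q, S, hp, hu, h2, han, hq, hι, fun g => ?_, hQ⟩))
      rw [hS g, e]
  · obtain ⟨σ, ε, ι, _, _, J₀, S, hc, hσ, han, hS, ⟨hty, hQ⟩ | ⟨hσc, hε1, h2, hι, -, hQ⟩⟩ := h
    · obtain rfl : σ = RingHom.id ℝ := Subsingleton.elim _ _
      rcases hty with ⟨⟨c, hc⟩, -⟩ | ⟨-, rfl, hι, -⟩
      · exact (hc rfl).elim
      · exact Or.inr (Or.inr (Or.inr (Or.inr (Or.inr ⟨ℝ, inferInstance, inferInstance,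
          .real (RingEquiv.refl ℝ) fun _ => rfl, two_ne_zero, quo_sp hS hQ⟩))))
    · subst hε1
      have e := orth_id hσc
      rw [e] at han
      refine Or.inr (Or.inr (Or.inr (Or.inl ⟨ι, _, _, J₀, S, han, hι, fun g => ?_, hQ⟩)))
      rw [hS g, e]
  · obtain ⟨σ, ε, ι, _, _, J₀, S, hc, hσ, han, hS, ⟨hty, hQ⟩ |
      ⟨hσc, hε1, h2, hι, ⟨x, hx⟩, hQ⟩⟩ := h
    · rcases Complex.ringHom_eq_id_or_conj_of_continuous hc with rfl | rfl
      · rcases hty with ⟨⟨c, hc⟩, -⟩ | ⟨-, rfl, hι, -⟩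
        · exact (hc rfl).elim
        · exact Or.inr (Or.inr (Or.inr (Or.inr (Or.inr ⟨ℂ, inferInstance, inferInstance,
            .cplx (RingEquiv.refl ℂ) fun _ => rfl, two_ne_zero, quo_sp hS hQ⟩))))
      · rcases hty with ⟨-, rfl⟩ | ⟨hσc, -⟩
        · exact Or.inr (Or.inr (Or.inr (Or.inr (Or.inl ⟨ι, _, _, J₀, S, han, hS, hQ⟩))))
        · have h1 := congrArg Complex.im (hσc Complex.I)
          norm_num at h1
    · obtain ⟨y, hy⟩ := IsAlgClosed.exists_eq_mul_self x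
      exact (hx y hy.symm).elim

/-- **The lattices of the class `LatticeW`**, for any conclusion `C`. -/
theorem latticeW_of {C : ∀ (Γ : Type) [Group Γ], Prop}
    (hU : ∀ (Γ : Type) [Group Γ], LatticeU Γ → C Γ)
    (hU2 : ∀ (Γ : Type) [Group Γ], LatticeU2 Γ → C Γ)
    (hO : ∀ (Γ : Type) [Group Γ], LatticeO Γ → C Γ)
    (hR : ∀ (Γ : Type) [Group Γ], LatticeOR Γ → C Γ)
    (hH : ∀ (Γ : Type) [Group Γ], LatticeUC Γ → C Γ)
    (hC : ∀ (Γ : Type) [Group Γ], LatticeC3 Γ → C Γ) :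
    ∀ (Γ : Type) [Group Γ], LatticeW Γ → C Γ := by
  rintro Γ _ ⟨hicc, E, _, _, i, ht, hi, hl⟩
  rcases typeW_cases ht with h | h | h | h | h | h
  · exact hU Γ ⟨hicc, E, _, _, i, h, hi, hl⟩
  · exact hU2 Γ ⟨hicc, E, _, _, i, h, hi, hl⟩
  · exact hO Γ ⟨hicc, E, _, _, i, h, hi, hl⟩
  · exact hR Γ ⟨hicc, E, _, _, i, h, hi, hl⟩
  · exact hH Γ ⟨hicc, E, _, _, i, h, hi, hl⟩
  · exact hC Γ ⟨hicc, E, _, _, i, h, hi, hl⟩

end Vale.Agent.P092.UN
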