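import Vale.Agent.P092.UN.Sl3
import Vale.Agent.P092.UN.Eqv
import Vale.Agent.P092.H458.T.All
import Vale.Agent.P092.SDT.UMain

/-!
P092 (helper701): the final statements for `SL_3(k)`, `k = ℝ` or nonarchimedean, all amplifications,
in compact letters.
-/

namespace Vale.Agent.P092.UN

theorem Lattice3.real {Γ : Type} [Group Γ] (h : Lattice3 ℝ Γ) : SD.St.RealLattice Γ := by
  obtain ⟨h1, i, h2, h3⟩ := h
  exact ⟨(icc_iff Γ).1 h1, i, h2, (isLattice_iff i.range).1 h3⟩

theorem Lattice3.na {k : Type} [NontriviallyNormedField k] [ProperSpace k] [IsUltrametricDist k]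
    {Γ : Type} [Group Γ] (h : Lattice3 k Γ) : H252.DU.NaLattice Γ := by
  obtain ⟨h1, i, h2, h3⟩ := h
  exact ⟨(icc_iff Γ).1 h1, k, inferInstance, i, inferInstance, inferInstance, h2,
    (isLattice_iff i.range).1 h3⟩

/-- Every ICC lattice in `SL_3(ℝ)`: the conclusion of Q1. -/
theorem real_superAll (Γ : Type) [Group Γ] (h : Lattice3 ℝ Γ) : SuperAll Γ :=
  superAll_of (H458.HalfT.finalAll.1 Γ h.real)

/-- `SL_3(ℤ)`: the conclusion of Q1. -/
theorem sl3z_superAll : SuperAll (Matrix.SpecialLinearGroup (Fin 3) ℤ) :=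
  superAll_of (SD.lattice_superAll_of H458.HalfT.finalAll.1).2

/-- Every ICC lattice in `SL_3(k)`, `k` a nonarchimedean local field: the conclusion of Q1. -/
theorem na_superAll3 (k : Type) [NontriviallyNormedField k] [ProperSpace k] [IsUltrametricDist k]
    (Γ : Type) [Group Γ] (h : Lattice3 k Γ) : SuperAll Γ :=
  superAll_of (SDT.U.na_superAll Γ h.na)

end Vale.Agent.P092.UN
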