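import Vale.Agent.P092.UN.NfC
import Vale.Agent.P092.SP.OneF

/-!
P092, TEAM P (helper805): every ICC lattice of `Sp_4(k)/Z`, `k = ℝ` or non-archimedean of
characteristic not two, is W*-superrigid.
-/

set_option linter.all false

namespace Vale.Agent.P092.UN

theorem latticeC_super : ∀ (Γ : Type) [Group Γ], LatticeC Γ → Super Γ :=
  super_latticeC SP.coreE_pspR fun k _ _ _ h2 => SP.coreE_pspU k h2

end Vale.Agent.P092.UN
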