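import Vale.Agent.P092.UN.SpC4
import Vale.Agent.P092.H759.SpUC

/-!
P092, TEAM P (helper805, helper759): `PSp_4(ℤ)` is W*-superrigid.
-/

set_option linter.all false

namespace Vale.Agent.P092.UN

/-- **`PSp_4(ℤ)` is W*-superrigid.** -/
theorem super_pspZ : Super (Matrix.symplecticGroup (Fin 2) ℤ ⧸
    Subgroup.center (Matrix.symplecticGroup (Fin 2) ℤ)) :=
  latticeC_super _ H759.latticeC_pspZ

end Vale.Agent.P092.UN
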