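import Vale.Agent.P092.UN.StZ

/-!
P092 (helper25, helper144, helper736, helper932): lattices in products of simple groups, every irreducible
component of which has at least two factors (of any type over local fields of characteristic zero,
classical over any local fields) or is of type `A_n`, `n ≥ 2`, over any local field. Only definitions.
-/

namespace Vale.Agent.P092.UN

/-- The group `Γ` is embedded by `i` as a lattice of the topological group `E`, and `f` is a proper
homomorphism of `E` onto a subgroup of finite index of the product of the groups `G j`; every `G j` is a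
group `TypeY`, and `Γ` or `E` has property (T) or all the groups `G l` are `TypeY`, or it is a group
`ClsV` or `TypeX` in which the image of `Γ` is not discrete. -/
def LatF (Γ : Type) [Group Γ] (J : Type) [Fintype J] (G : J → Type) [∀ j, Group (G j)]
    [∀ j, TopologicalSpace (G j)] (E : Type) [Group E] [TopologicalSpace E] (f : E →* ∀ j, G j)
    (i : Γ →* E) : Prop :=
  IsTopologicalGroup E ∧ IsProperMap f ∧ f.range.FiniteIndex ∧ Function.Injective i ∧
    IsLattice i.range ∧ ∀ j, (HasT Γ ∨ HasTC E ∨ ∀ l, TypeY (G l)) ∧ TypeY (G j) ∨
      (ClsV (G j) ∨ TypeX (G j)) ∧ ¬ DiscreteTopology (Set.range fun g => f (i g) j)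

/-- `Γ` is an ICC lattice of a topological group `E` with a proper homomorphism onto a subgroup of finite
index of a finite product of groups, as in `LatF`. -/
def LatticeF (Γ : Type) [Group Γ] : Prop :=
  ICC Γ ∧ ∃ (J : Type) (_ : Fintype J) (G : J → Type) (_ : ∀ j, Group (G j))
    (_ : ∀ j, TopologicalSpace (G j)) (E : Type) (_ : Group E) (_ : TopologicalSpace E)
    (f : E →* ∀ j, G j) (i : Γ →* E), LatF Γ J G E f i

end Vale.Agent.P092.UN
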