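import Vale.Agent.P092.UN.St
import Vale.Agent.P092.H35.Rp.Cls

/-!
P092 (helper35, helper993): groups of automorphisms of simple Lie algebras, in a form which prints
shortly. Only definitions.
-/

namespace Vale.Agent.P092.UN

open Vale.Agent.P092.H35.Rp (IsExp)

/-- `G` is a group of automorphisms of a simple Lie algebra `L` over `k` with a finite basis `b` which
contains the exponentials of all ad-nilpotent elements of `L`, with the topology of the matrices `a g`
of the automorphisms `ρ g`, and `L` has an ad-nilpotent element `x ≠ 0`. -/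
def IsLieS (k G : Type) [Field k] [TopologicalSpace k] [Group G] [TopologicalSpace G] : Prop :=
  ∃ (L : Type) (_ : LieRing L) (_ : LieAlgebra k L) (n : ℕ) (b : Fin n → L) (ρ : G → L → L)
    (a : G → Fin n → Fin n → k), LieAlgebra.IsSimple k L ∧ (∃ x : L, x ≠ 0 ∧ ∃ ψ, IsExp k x ψ) ∧
    (∀ x : L, ∃! c : Fin n → k, x = ∑ i, c i • b i) ∧
    (∀ g, IsLinearMap k (ρ g)) ∧ (∀ x, ρ 1 x = x) ∧ (∀ g h x, ρ (g * h) x = ρ g (ρ h x)) ∧
    (∀ g x y, ρ g ⁅x, y⁆ = ⁅ρ g x, ρ g y⁆) ∧ (∀ x ψ, IsExp k x ψ → ∃ g, ρ g = ψ) ∧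
    (∀ g j, ρ g (b j) = ∑ i, a g i j • b i) ∧ Topology.IsEmbedding a

/-- `G` is such a group over a local field `k` of characteristic zero. -/
def TypeLS (G : Type) [Group G] [TopologicalSpace G] : Prop :=
  ∃ (k : Type) (_ : NontriviallyNormedField k), ProperSpace k ∧ LocK k ∧ CharZero k ∧ IsLieS k G

end Vale.Agent.P092.UN
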