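import Vale.Agent.P092.H515.RkDef
import Vale.Agent.P092.H35.Rp.Cls

/-!
P092 (helper25, helper944, helper465, helper45): the class of groups with a rank of the final statement
`RankAll`, in short letters. Only definitions.
-/

namespace Vale.Agent.P092.UN.RA

open Vale.Agent.P092.H515.St (LocK form)
open Vale.Agent.P092.H35.Rp (IsExp)

/-- `L` has `r` linearly independent commuting elements `x` such that `y ↦ [x, y]` is diagonalizable
over `k`. -/
def Split (k L : Type) [Field k] [LieRing L] [LieAlgebra k L] (r : ℕ) : Prop :=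
  ∃ x : Fin r → L, LinearIndependent k x ∧ (∀ i j, ⁅x i, x j⁆ = 0) ∧
    ∀ i, ∃ (n : ℕ) (b : Module.Basis (Fin n) k L), ∀ j, ∃ c : k, ⁅x i, b j⁆ = c • b j

/-- `G` is a group of automorphisms of the Lie algebra `L` over `k` which contains the exponentials of
all ad-nilpotent elements of `L`, with the topology of the matrix coefficients. -/
def IsAut (k G L : Type) [Field k] [TopologicalSpace k] [Group G] [TopologicalSpace G] [LieRing L]
    [LieAlgebra k L] : Prop :=
  ∃ (n : ℕ) (b : Module.Basis (Fin n) k L) (ρ : G →* Module.End k L),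
    (∀ g (x y : L), ρ g ⁅x, y⁆ = ⁅ρ g x, ρ g y⁆) ∧ (∀ x ψ, IsExp k x ψ → ∃ g, ⇑(ρ g) = ψ) ∧
    Topology.IsEmbedding (fun g (i j : Fin n) => b.repr (ρ g (b j)) i)

/-- `G` is such a group for a simple Lie algebra `L` over `k` with an ad-nilpotent element `x ≠ 0`, and
`r` is the largest number with `Split k L r`. -/
def IsLieR (k G : Type) [Field k] [TopologicalSpace k] [Group G] [TopologicalSpace G] (r : ℕ) :
    Prop :=
  ∃ (L : Type) (_ : LieRing L) (_ : LieAlgebra k L), LieAlgebra.IsSimple k L ∧
    (∃ (x : L) (ψ : L → L), x ≠ 0 ∧ IsExp k x ψ) ∧ IsAut k G L ∧ Split k L r ∧ ¬ Split k L (r + 1)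

/-- `G` is topologically isomorphic to the special isometry group of an `(ε, σ)`-hermitian form which
is the sum of `q` hyperbolic planes and an anisotropic form `J₀`. -/
def IsIsom (k G : Type) [NontriviallyNormedField k] [Group G] [TopologicalSpace G] (q : ℕ) : Prop :=
  ∃ (σ : k →+* k) (ε : k) (n : ℕ) (J₀ : Matrix (Fin n) (Fin n) k)
    (f : G →* Matrix.SpecialLinearGroup ((Fin q ⊕ Fin q) ⊕ Fin n) k),
    (∀ x, σ (σ x) = x) ∧ (∀ x, ‖σ x‖ = ‖x‖) ∧ ε * ε = 1 ∧ σ ε = ε ∧
    (∀ v : Fin n → k, v ≠ 0 → v ⬝ᵥ (J₀.mulVec fun l => σ (v l)) ≠ 0) ∧ Topology.IsEmbedding f ∧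
    ∀ g, g ∈ f.range ↔ g.1 * form q ε J₀ * (g.1.map σ).transpose = form q ε J₀

/-- The smallest class of topological groups with a number (the rank) which contains, for every local
field `k`, the groups `SL_{n+1}(k)` of rank `n`, the groups `IsIsom k G q` of rank `q` if `P q`, for
every local field `k` of characteristic zero the groups `IsLieR k G r`, of rank `r`, and is closed under
products and under the passage from `G` to a group `E` with a proper homomorphism onto a subgroup of
finite index of `G`. -/
inductive RkL (P : ℕ → Prop) : (G : Type) → [Group G] → [TopologicalSpace G] → ℕ → Prop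
  | sl (k : Type) [NontriviallyNormedField k] [ProperSpace k] (hk : LocK k) (n : ℕ) :
      RkL P (Matrix.SpecialLinearGroup (Fin (n + 1)) k) n
  | isom (k : Type) [NontriviallyNormedField k] [ProperSpace k] (hk : LocK k)
      (G : Type) [Group G] [TopologicalSpace G] (q : ℕ) (hq : P q) (h : IsIsom k G q) : RkL P G q
  | lie (k : Type) [NontriviallyNormedField k] [ProperSpace k] [CharZero k] (hk : LocK k)
      (G : Type) [Group G] [TopologicalSpace G] (r : ℕ) (h : IsLieR k G r) : RkL P G r
  | prod (G H : Type) [Group G] [TopologicalSpace G] [Group H] [TopologicalSpace H] (r s : ℕ)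
      (hG : RkL P G r) (hH : RkL P H s) : RkL P (G × H) (r + s)
  | ext (E G : Type) [Group E] [TopologicalSpace E] [IsTopologicalGroup E] [Group G]
      [TopologicalSpace G] (r : ℕ) (f : E →* G) (hf : IsProperMap f) (hr : f.range.FiniteIndex)
      (hG : RkL P G r) : RkL P E r

end Vale.Agent.P092.UN.RA
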