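import Vale.Agent.P092.UN.StA

/-!
P092 (helper350): lattices in one group of type `A_n`, `n ≥ 2`. Only a definition.
-/

namespace Vale.Agent.P092.UN

/-- `Γ` is an ICC lattice in a group `SL_n(k)/Z`, `Z` central, `n ≥ 3`, `k` a local field. -/
def LatticeS (Γ : Type) [Group Γ] : Prop :=
  ICC Γ ∧ ∃ (E : Type) (_ : Group E) (_ : TopologicalSpace E) (i : Γ →* E),
    TypeA E ∧ Function.Injective i ∧ IsLattice i.range

end Vale.Agent.P092.UN
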