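import Mathlib.Analysis.InnerProductSpace.Basic
import Mathlib.Topology.Algebra.Group.Basic

/-!
P092 (helper993): Kazhdan's property (T) of a discrete group and of a topological group, in a form which
prints shortly. Only definitions.
-/

namespace Vale.Agent.P092.UN

/-- Kazhdan's property (T) of a discrete group: there are a finite subset `Q` and `κ > 0` such that in
every unitary representation `σ` without invariant vectors `≠ 0` every vector `v` is moved by at least
`κ ‖v‖` by an element of `Q`. -/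
def HasT (Γ : Type) [Group Γ] : Prop :=
  ∃ (Q : Finset Γ) (κ : ℝ), 0 < κ ∧
    ∀ (H : Type) [NormedAddCommGroup H] [InnerProductSpace ℂ H] [CompleteSpace H] (σ : Γ → H → H),
      (∀ g, IsLinearMap ℂ (σ g)) → (∀ g v, ‖σ g v‖ = ‖v‖) → (∀ v, σ 1 v = v) →
      (∀ g h v, σ (g * h) v = σ g (σ h v)) → (∀ v, (∀ g, σ g v = v) → v = 0) →
        ∀ v, ∃ g ∈ Q, κ * ‖v‖ ≤ ‖σ g v - v‖

/-- Kazhdan's property (T) of a topological group: there are a compact subset `Q` and `κ > 0` such that
in every strongly continuous unitary representation `σ` without invariant vectors `≠ 0` every vector `v`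
is moved by at least `κ ‖v‖` by an element of `Q`. -/
def HasTC (G : Type) [Group G] [TopologicalSpace G] : Prop :=
  ∃ (Q : Set G) (κ : ℝ), IsCompact Q ∧ 0 < κ ∧
    ∀ (H : Type) [NormedAddCommGroup H] [InnerProductSpace ℂ H] [CompleteSpace H] (σ : G → H → H),
      (∀ g, IsLinearMap ℂ (σ g)) → (∀ g v, ‖σ g v‖ = ‖v‖) → (∀ v, σ 1 v = v) →
      (∀ g h v, σ (g * h) v = σ g (σ h v)) → (∀ v, Continuous fun g => σ g v) →
      (∀ v, (∀ g, σ g v = v) → v = 0) → ∀ v, ∃ g ∈ Q, κ * ‖v‖ ≤ ‖σ g v - v‖

end Vale.Agent.P092.UN
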