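import Vale.Agent.P092.UN.St
import Vale.Agent.P092.UN.StT
import Vale.Agent.P092.UN.ClsV
import Vale.Agent.P092.H35.Rp.Cls

/-!
P092 (helper932, helper736, helper25, helper259, helper188, helper993): lattices in products of simple
groups of any type over local fields of characteristic zero, of classical groups over any local fields
and of groups of type `A_n`, `n ≥ 2`, over any local fields. The parameters of every class are arguments
of its definition: such definitions print shortly. Only definitions.
-/

open Matrix

namespace Vale.Agent.P092.UN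

open Vale.Agent.P092.H35.Rp (IsExp)

/-- `k` is a local field of characteristic zero, `L` is a simple Lie algebra over `k` of finite dimension
which has an ad-nilpotent element `x ≠ 0`, and `G` is a group of automorphisms of `L`, with the topology
of the matrix coefficients, which contains the exponentials of all ad-nilpotent elements of `L`. -/
def LieG (k L G : Type) [NontriviallyNormedField k] [LieRing L] [LieAlgebra k L] [Group G]
    [TopologicalSpace G] : Prop :=
  ProperSpace k ∧ LocK k ∧ CharZero k ∧ LieAlgebra.IsSimple k L ∧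
    (∃ x : L, x ≠ 0 ∧ ∃ ψ, IsExp k x ψ) ∧
    ∃ (n : ℕ) (b : Module.Basis (Fin n) k L) (ρ : G →* Module.End k L),
      (∀ g (x y : L), ρ g ⁅x, y⁆ = ⁅ρ g x, ρ g y⁆) ∧ (∀ x ψ, IsExp k x ψ → ∃ g, ⇑(ρ g) = ψ) ∧
      Topology.IsEmbedding fun g (i j : Fin n) => b.repr (ρ g (b j)) i

/-- `G` is a group `LieG k L G` for some `k` and `L`. -/
def TypeX (G : Type) [Group G] [TopologicalSpace G] : Prop :=
  ∃ (k : Type) (_ : NontriviallyNormedField k) (L : Type) (_ : LieRing L) (_ : LieAlgebra k L),
    LieG k L G

/-- `k` is a local field, `n ≥ 3`, `P` is, up to an isomorphism of topological groups,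
`PGL_n(k) = GL_n(k)/center`, and `T` is the set of the classes of the matrices of determinant one. -/
def PGLn (k : Type) [NontriviallyNormedField k] (n : ℕ) (P : Type) [Group P] [TopologicalSpace P]
    (T : Set P) : Prop :=
  ProperSpace k ∧ LocK k ∧ 3 ≤ n ∧ ∃ q : GL (Fin n) k →* P, Topology.IsQuotientMap q ∧
    q.ker = Subgroup.center (GL (Fin n) k) ∧ T = q '' {g | g.1.det = 1}

/-- `G` is, up to an isomorphism of topological groups, a closed subgroup of `PGL_n(k)`, `n ≥ 3`, `k` a
local field in which `n` is not zero, which contains the classes of the matrices of determinant one. -/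
def TypeZ (G : Type) [Group G] [TopologicalSpace G] : Prop :=
  ∃ (k : Type) (_ : NontriviallyNormedField k) (n : ℕ) (P : Type) (_ : Group P)
    (_ : TopologicalSpace P) (T : Set P) (p : G →* P), PGLn k n P T ∧ (n : k) ≠ 0 ∧
    Topology.IsClosedEmbedding p ∧ ∀ x ∈ T, ∃ g, p g = x

/-- The group `Γ` is embedded by `i` as a lattice of the topological group `E`, and `f` is a proper
homomorphism of `E` onto a subgroup of finite index of the product of the groups `G j`; `Γ` or `E` has
property (T), or the image of `Γ` in no `G j` is discrete; every `G j` is a group `TypeZ`, or it is a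
group `ClsV` or `TypeX` in which the image of `Γ` is not discrete. -/
def LatX (Γ : Type) [Group Γ] (J : Type) [Fintype J] (G : J → Type) [∀ j, Group (G j)]
    [∀ j, TopologicalSpace (G j)] (E : Type) [Group E] [TopologicalSpace E] (f : E →* ∀ j, G j)
    (i : Γ →* E) : Prop :=
  IsTopologicalGroup E ∧ IsProperMap f ∧ f.range.FiniteIndex ∧ Function.Injective i ∧
    IsLattice i.range ∧
    (HasT Γ ∨ HasTC E ∨ ∀ j, ¬ DiscreteTopology (Set.range fun g => f (i g) j)) ∧
    ∀ j, TypeZ (G j) ∨
      (ClsV (G j) ∨ TypeX (G j)) ∧ ¬ DiscreteTopology (Set.range fun g => f (i g) j)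

/-- `Γ` is an ICC lattice of a topological group `E` with a proper homomorphism onto a subgroup of finite
index of a finite product of groups, as in `LatX`. -/
def LatticeX (Γ : Type) [Group Γ] : Prop :=
  ICC Γ ∧ ∃ (J : Type) (_ : Fintype J) (G : J → Type) (_ : ∀ j, Group (G j))
    (_ : ∀ j, TopologicalSpace (G j)) (E : Type) (_ : Group E) (_ : TopologicalSpace E)
    (f : E →* ∀ j, G j) (i : Γ →* E), LatX Γ J G E f i

/-- `Γ` is an ICC lattice (reducible or not) of a topological group `E` with a proper homomorphism `f`
to a finite product of groups `G j = PGL_n(k)`, `n ≥ 3`, `k` a local field, whose range contains in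
every factor the classes of the matrices of determinant one. -/
def LatticeY (Γ : Type) [Group Γ] : Prop :=
  ICC Γ ∧ ∃ (J : Type) (_ : Fintype J) (_ : DecidableEq J) (k : J → Type)
    (_ : ∀ j, NontriviallyNormedField (k j)) (n : J → ℕ) (G : J → Type) (_ : ∀ j, Group (G j))
    (_ : ∀ j, TopologicalSpace (G j)) (T : ∀ j, Set (G j)) (E : Type) (_ : Group E)
    (_ : TopologicalSpace E) (f : E →* ∀ j, G j) (i : Γ →* E),
    IsTopologicalGroup E ∧ IsProperMap f ∧ (∀ j, PGLn (k j) (n j) (G j) (T j)) ∧
    (∀ j, ∀ x ∈ T j, ∃ y, f y = Pi.mulSingle j x) ∧ Function.Injective i ∧ IsLattice i.range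

end Vale.Agent.P092.UN
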